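import Vale.Agent.P297.H55.Iso.Grp

/-!
Bloch's conjecture for the quotients by the groups `ℤ/8` and `Q₈` of the intersections of four
quadrics with isolated hypersurface singularities: final form.
-/

set_option linter.unusedSectionVars false
set_option linter.style.haveILetI false

open IntermediateField Polynomial

namespace Vale.Agent.P297.H55.Nd

open Vale.Agent.P297 Vale.Agent.P297.Gen Vale.Agent.P297.Z3 Vale.Agent.P297.C8
open Vale.Agent.P297.H72 Vale.Agent.P297.H777 Vale.Agent.P297.H637 Vale.Agent.P297.H212.Camp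
open Vale.Agent.P297.H55.T8 Vale.Agent.P297.H839 Vale.Agent.P297.H10

section q8

variable {a : ℂ} {p q r : Fin 3 → ℂ}

theorem q8_a_ne (hfin : NoBase (webQ a p q r)) : a ≠ 0 := by
  intro ha
  obtain ⟨v, hv, h⟩ := H572.Half.common_zero (k := ℂ) (σ := Fin 4) (τ := Fin 3) (by simp)
    (fun i => qq (webQ a p q r) (MvPolynomial.X : Fin 4 → MvPolynomial (Fin 4) ℂ) (Fin.succ i)) (by
      intro i
      rw [map_qq]
      simp [qq_apply])
  apply hv
  apply hfin
  have h' : ∀ i : Fin 3, qq (webQ a p q r) v (Fin.succ i) = 0 := by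
    intro i
    have h1 := h i
    rw [map_qq] at h1
    simpa using h1
  funext i
  refine Fin.cases ?_ (fun k => h' k) i
  rw [qq_webQ, ha]
  simp

/-- the polar form of the first quadric -/
def b0 (u w : Fin 4 → ℂ) : ℂ := u 0 * w 3 + u 3 * w 0 - u 1 * w 2 - u 2 * w 1

theorem q8_b0 (hfin : NoBase (webQ a p q r)) {y L : Fin 4 → ℂ} (h : Cen (webQ a p q r) y L) :
    b0 y y ≠ 0 := by
  intro h0
  have ha := q8_a_ne hfin
  have h1 : ∀ w, b0 y w = 0 := by
    intro w
    have h2 := congrFun (h.form w) 0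
    have h3 : qb (webQ a p q r) y w 0 = a * b0 y w := by
      rw [qb_webQ]
      rfl
    have h4 : qq (webQ a p q r) y 0 = a * b0 y y := by
      rw [qq, qb_webQ]
      rfl
    rw [h3, Pi.smul_apply, h4, h0, mul_zero, smul_zero] at h2
    exact (mul_eq_zero.1 h2).resolve_left ha
  apply h.ne
  funext i
  fin_cases i
  · have h2 := h1 ![0, 0, 0, 1]
    simpa [b0] using h2
  · have h2 := h1 ![0, 0, 1, 0]
    simpa [b0] using h2
  · have h2 := h1 ![0, 1, 0, 0]
    simpa [b0] using h2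
  · have h2 := h1 ![1, 0, 0, 0]
    simpa [b0] using h2

/-- the first generator -/
def s1 (y : Fin 4 → ℂ) : Fin 4 → ℂ := ![y 0, -y 1, y 2, -y 3]

/-- the second generator -/
def s2 (y : Fin 4 → ℂ) : Fin 4 → ℂ := ![y 1, -y 0, y 3, -y 2]

theorem s1_s1 (y : Fin 4 → ℂ) : s1 (s1 y) = y := by
  funext i
  fin_cases i <;> simp [s1]

theorem s2_s2 (y : Fin 4 → ℂ) : s2 (s2 y) = -y := by
  funext i
  fin_cases i <;> simp [s2]

theorem s2_neg (y : Fin 4 → ℂ) : s2 (-y) = -s2 y := by
  funext i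
  fin_cases i <;> simp [s2]

theorem cen_s1 (hfin : NoBase (webQ a p q r)) {y L : Fin 4 → ℂ} (h : Cen (webQ a p q r) y L) :
    ∃ L', Cen (webQ a p q r) (s1 y) L' := by
  refine h.map hfin s1 (fun z => ![-z 0, -z 1, z 2, z 3]) ?_ ?_ ?_ ?_
  · intro c z
    funext i
    fin_cases i <;> simp
  · exact fun w => ⟨s1 w, s1_s1 w⟩
  · intro u w
    rw [qb_webQ, qb_webQ]
    funext i
    fin_cases i <;> simp [s1] <;> ring
  · intro h0
    apply h.ne
    rw [← s1_s1 y, h0]
    funext i
    fin_cases i <;> simp [s1]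

theorem cen_s2 (hfin : NoBase (webQ a p q r)) {y L : Fin 4 → ℂ} (h : Cen (webQ a p q r) y L) :
    ∃ L', Cen (webQ a p q r) (s2 y) L' := by
  refine h.map hfin s2 (fun z => ![z 0, -z 1, z 2, -z 3]) ?_ ?_ ?_ ?_
  · intro c z
    funext i
    fin_cases i <;> simp
  · exact fun w => ⟨-s2 w, by rw [s2_neg, s2_s2, neg_neg]⟩
  · intro u w
    rw [qb_webQ, qb_webQ]
    funext i
    fin_cases i
    · simp [s2]
      left
      ring
    · simp [s2]
      ring
    · simp [s2]
      ring
    · simp [s2]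
      ring
  · intro h0
    apply h.ne
    have h1 := s2_s2 y
    rw [h0] at h1
    funext i
    have h2 := congrFun h1 i
    rw [Pi.neg_apply] at h2
    have h3 : s2 0 i = 0 := by
      fin_cases i <;> simp [s2]
    rw [h3] at h2
    exact neg_eq_zero.1 h2.symm

/-- the orbit of the centre -/
def qC (y : Fin 4 → ℂ) : Fin 4 → Fin 4 → ℂ := ![y, s1 y, s2 y, s1 (s2 y)]

theorem b0_qC (y : Fin 4 → ℂ) (i j : Fin 4) (hij : i ≠ j) : b0 (qC y i) (qC y j) = 0 := by
  fin_cases i <;> fin_cases j <;> first | exact absurd rfl hij | skip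
  all_goals
    simp [b0, qC, s1, s2]
    try ring

theorem b0_self (y : Fin 4 → ℂ) (i : Fin 4) (h : b0 y y ≠ 0) : b0 (qC y i) (qC y i) ≠ 0 := by
  have h1 : b0 (qC y i) (qC y i) = b0 y y ∨ b0 (qC y i) (qC y i) = -b0 y y := by
    fin_cases i
    · left
      rfl
    · right
      simp [b0, qC, s1]
      ring
    · left
      simp [b0, qC, s2]
      ring
    · right
      simp [b0, qC, s1, s2]
      ring
  rcases h1 with h1 | h1
  · rw [h1]
    exact h
  · rw [h1]
    exact neg_ne_zero.2 h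

theorem b0_comb (u w z : Fin 4 → ℂ) (s t : ℂ) :
    b0 z (s • u + t • w) = s * b0 z u + t * b0 z w := by
  simp only [b0, Pi.add_apply, Pi.smul_apply, smul_eq_mul]
  ring

theorem q8_four (hfin : NoBase (webQ a p q r)) (y L : Fin 4 → ℂ)
    (h : Cen (webQ a p q r) y L) : ∃ C L : Fin 4 → Fin 4 → ℂ, Four (webQ a p q r) C L := by
  have hb := q8_b0 hfin h
  obtain ⟨L1, hL1⟩ := cen_s1 hfin h
  obtain ⟨L2, hL2⟩ := cen_s2 hfin h
  obtain ⟨L3, hL3⟩ := cen_s1 hfin hL2
  refine ⟨qC y, ![L, L1, L2, L3], fun i => ?_, fun i j hij => ?_⟩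
  · fin_cases i
    · exact h
    · exact hL1
    · exact hL2
    · exact hL3
  · rw [LinearIndependent.pair_iff]
    intro s t hst
    have hz : ∀ z, b0 z (s • qC y i + t • qC y j) = 0 := by
      intro z
      rw [hst]
      simp [b0]
    have e1 := hz (qC y i)
    have e2 := hz (qC y j)
    rw [b0_comb, b0_qC y i j hij, mul_zero, add_zero] at e1
    rw [b0_comb, b0_qC y j i hij.symm, mul_zero, zero_add] at e2
    exact ⟨(mul_eq_zero.1 e1).resolve_right (b0_self y i hb),
      (mul_eq_zero.1 e2).resolve_right (b0_self y j hb)⟩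

/-- **Bloch's conjecture**: the quaternion case, on the field of the octic. -/
theorem bloch_Q8_iso {K K₁ : Type} [Field K] [Algebra ℂ K] [Field K₁] [Algebra ℂ K₁]
    {c : Fin 4 → K₁} (hfin : NoBase (webQ a p q r)) (hs : IsoX (webQ a p q r))
    (hc : C8.IsFF (webQ a p q r) c)
    {g₁ g₂ : K₁ ≃ₐ[ℂ] K₁} (hg : ActQ c g₁ g₂) (ι : K →ₐ[ℂ] K₁) (h₁ : ∀ s, g₁ (ι s) = ι s)
    (h₂ : ∀ s, g₂ (ι s) = ι s) : PointsEquivalent K := by
  have hdisc := hdisc_Q8_of_iso hfin hs
  exact bloch_iso (N := AlgebraicClosure K₁) (n := 128) hc (webQ_symm a p q r)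
    hfin hc.irr (three_webQ a p q r) (hdet_Q8 hdisc) (by norm_num)
    (dhyp_Q8 hfin hc hdisc hg ι h₁ h₂ 0) hs (q8_four hfin)
    (IsScalarTower.toAlgHom ℂ K₁ (AlgebraicClosure K₁))

variable {E : Type} [Field E] [Algebra ℂ E] {x : Fin 4 → E} {v : Fin 3 → E}

/-- **Bloch's conjecture** for all the fields contained in the field of the quotient by the
quaternion group of an intersection `X` of four quadrics: `X` is irreducible, the action of the
group is free (no base points), and `X` has isolated hypersurface singularities. -/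
theorem bloch_Q8_canonical (hfin : NoBase (webQ a p q r))
    (hirr : Irreducible (octic (webQ a p q r))) (hs : IsoX (webQ a p q r))
    (hX : IsX (webQ a p q r) x v) : ∃ G₁ G₂ : E ≃ₐ[ℂ] E, ActX x v G₁ G₂ ∧
      ∀ (L : Type) [Field L] [Algebra ℂ L],
        (L →ₐ[ℂ] IntermediateField.fixedField (F := ℂ) (Subgroup.closure {G₁, G₂})) →
          PointsEquivalent L := by
  obtain ⟨G₁, G₂, hG⟩ := exists_act hirr hX
  refine ⟨G₁, G₂, hG, fun L _ _ ι => ?_⟩
  obtain ⟨g₁, g₂, κ, hact, h1, h2⟩ := exists_incl_Q8 hirr hX hG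
  exact bloch_Q8_iso hfin hs (hX.isFF hirr) hact (κ.comp ι) (fun s => h1 (ι s)) fun s => h2 (ι s)

end q8

section z8

variable {m : Fin 10 → ℂ}

/-- **Bloch's conjecture**, for a field fixed by the generator of the group. -/
theorem bloch_Z8_iso {K K₁ : Type} [Field K] [Algebra ℂ K] [Field K₁] [Algebra ℂ K₁]
    (hfin : NoBase (zweb m)) (hs : IsoX (zweb m)) {c : Fin 4 → K₁} (hx : C8.IsFF (zweb m) c)
    (g : K₁ →ₐ[ℂ] K₁) (hg : ∀ j, g (c j) = zl j • c j) (ι : K →ₐ[ℂ] K₁)
    (hι : ∀ s, g (ι s) = ι s) : PointsEquivalent K :=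
  have hirr := hx.irr
  have hdisc := hdisc_of_iso m hfin hs
  bloch_iso (N := AlgebraicClosure K₁) (n := 128) hx (zweb_symm m) hfin hirr (exists_three m)
    (Z8.hdet hdisc) (by norm_num)
    (Z8.dhyp hfin hirr hdisc hx ι g hg (AlgHom.ext hι) 0) hs (z8_four hfin)
    (IsScalarTower.toAlgHom ℂ K₁ (AlgebraicClosure K₁))

variable {E : Type} [Field E] [Algebra ℂ E] {x : Fin 4 → E} {v : Fin 3 → E}

/-- **Bloch's conjecture** for all the fields contained in the field of the quotient by the cyclic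
group of order eight of an intersection `X` of four quadrics: `X` is irreducible, the action of the
group is free (no base points), and `X` has isolated hypersurface singularities. -/
theorem bloch_Z8_canonical (hfin : NoBase (zweb m)) (hirr : Irreducible (octic (zweb m)))
    (hs : IsoX (zweb m)) (hX : IsX (zweb m) x v) {ε : ℂ} (hε : ε ^ 2 = -Complex.I) :
    ∃ G : E ≃ₐ[ℂ] E, ActZ ε x v G ∧ ∀ (L : Type) [Field L] [Algebra ℂ L],
      (L →ₐ[ℂ] IntermediateField.fixedField (F := ℂ) (Subgroup.zpowers G)) →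
        PointsEquivalent L := by
  obtain ⟨G, hG⟩ := Z8.exists_act hirr hX hε
  refine ⟨G, hG, fun L _ _ ι => ?_⟩
  obtain ⟨g, κ, h1, h2⟩ := Z8.exists_incl hirr hX hε hG
  exact bloch_Z8_iso hfin hs (hX.isFF hirr) g h1 (κ.comp ι) fun s => h2 (ι s)

end z8

end Vale.Agent.P297.H55.Nd
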