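import Vale.Agent.P297.H55.Iso.Def
import Vale.Agent.P297.H55.Dom
import Vale.Agent.P297.H10.OctIrr
import Vale.Agent.P297.H10.XField

/-!
The octic of an irreducible intersection `Q(o) = e(v)` of four quadrics with isolated hypersurface
singularities is irreducible.
-/

set_option linter.unusedSectionVars false

open MvPolynomial

namespace Vale.Agent.P297.C8

section der

variable {Q : Web} {E : Type} [Field E] [Algebra ℂ E]

theorem pderiv_stX (l : Fin 4) :
    pderiv l (st (X : Fin 4 → MvPolynomial (Fin 4) ℂ)) = gs4 X l := by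
  have h2 : ∀ j : Fin 4, pderiv j (2 : MvPolynomial (Fin 4) ℂ) = 0 := fun j => by
    rw [show (2 : MvPolynomial (Fin 4) ℂ) = C 2 from (map_ofNat C 2).symm]
    exact pderiv_C
  fin_cases l <;>
  · simp [st, gs4, pderiv_X, h2]
    ring

theorem aeval_pderiv_qq (hQ : ∀ i, (Q i).IsSymm) (x : Fin 4 → E) (l j : Fin 4) :
    aeval x (pderiv j (qq Q (X : Fin 4 → MvPolynomial (Fin 4) ℂ) l)) =
      2 * qb Q x (Pi.single j 1) l := by
  have hs : ∀ a b, Q l a b = Q l b a := fun a b => (hQ l).apply b a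
  rw [qq_apply, qb_apply]
  simp only [Fin.sum_univ_four, map_add, map_mul, pderiv_mul, pderiv_X, algebraMap_eq, pderiv_C,
    aeval_X, aeval_C, zero_mul, zero_add]
  rw [hs 1 0, hs 2 0, hs 3 0, hs 2 1, hs 3 1, hs 3 2]
  fin_cases j <;>
  · simp
    ring

theorem map_gs4 {R A : Type} [CommRing R] [CommRing A] [Algebra ℂ R] [Algebra ℂ A]
    (g : R →ₐ[ℂ] A) (y : Fin 4 → R) (l : Fin 4) : g (gs4 y l) = gs4 (fun j => g (y j)) l := by
  have h2 : g 2 = 2 := map_ofNat g 2
  fin_cases l <;>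
  · simp only [gs4, Fin.zero_eta, Fin.mk_one, Fin.reduceFinMk, Matrix.cons_val, map_neg, map_mul,
      map_add, map_sub, map_pow, h2]

theorem aeval_pderiv_octic (hQ : ∀ i, (Q i).IsSymm) (x : Fin 4 → E) (j : Fin 4) :
    aeval x (pderiv j (octic Q)) =
      2 * ∑ l, gs4 (qq Q x) l * qb Q x (Pi.single j 1) l := by
  have h1 : octic Q = aeval (qq Q (X : Fin 4 → MvPolynomial (Fin 4) ℂ))
      (st (X : Fin 4 → MvPolynomial (Fin 4) ℂ)) := by
    rw [octic, map_st]
    simp only [aeval_X]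
  rw [h1, H55.pderiv_aeval, map_sum, Finset.mul_sum]
  refine Finset.sum_congr rfl fun l _ => ?_
  rw [map_mul, pderiv_stX, aeval_pderiv_qq hQ, map_gs4, map_gs4]
  simp only [aeval_X]
  have h3 : (fun k => aeval x (qq Q (X : Fin 4 → MvPolynomial (Fin 4) ℂ) k)) = qq Q x :=
    funext fun k => aeval_qq_X Q x k
  rw [h3]
  ring

theorem single_sum (u : Fin 4 → E) : u = ∑ j, u j • (Pi.single j (1 : E) : Fin 4 → E) := by
  funext k
  rw [Finset.sum_apply, Finset.sum_eq_single k]
  · simp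
  · intro j _ hj
    simp [hj.symm]
  · simp

theorem qb_single_sum (x u : Fin 4 → E) (l : Fin 4) :
    qb Q x u l = ∑ j, u j * qb Q x (Pi.single j 1) l := by
  simp only [qb_apply, Fin.sum_univ_four]
  simp
  ring

/-- The gradient at a multiple point. -/
theorem sum_gs4_of_sq (hQ : ∀ i, (Q i).IsSymm) {x : Fin 4 → E} {f g : MvPolynomial (Fin 4) ℂ}
    (hF : octic Q = f * g) (hf : aeval x f = 0) (hg : aeval x g = 0) (u : Fin 4 → E) :
    ∑ l, gs4 (qq Q x) l * qb Q x u l = 0 := by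
  have : CharZero E := charZero_of_injective_algebraMap (algebraMap ℂ E).injective
  have h1 : ∀ j, ∑ l, gs4 (qq Q x) l * qb Q x (Pi.single j 1) l = 0 := by
    intro j
    have h2 := aeval_pderiv_octic hQ x j
    rw [hF, pderiv_mul, map_add, map_mul, map_mul, hf, hg, mul_zero, zero_mul, add_zero] at h2
    exact (mul_eq_zero.1 h2.symm).resolve_left two_ne_zero
  calc ∑ l, gs4 (qq Q x) l * qb Q x u l
      = ∑ l, ∑ j, u j * (gs4 (qq Q x) l * qb Q x (Pi.single j 1) l) := by
        refine Finset.sum_congr rfl fun l _ => ?_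
        rw [qb_single_sum, Finset.mul_sum]
        exact Finset.sum_congr rfl fun j _ => by ring
    _ = ∑ j, u j * ∑ l, gs4 (qq Q x) l * qb Q x (Pi.single j 1) l := by
        rw [Finset.sum_comm]
        exact Finset.sum_congr rfl fun j _ => by rw [Finset.mul_sum]
    _ = 0 := Finset.sum_eq_zero fun j _ => by rw [h1 j, mul_zero]

theorem EE_gs4 (v : Fin 3 → E) : EE (gs4 (ee v)) v = 0 := by
  funext k
  have h := gs4_ee v (Pi.single k 1 : Fin 3 → E)
  rw [EE_dot, Fin.sum_univ_three] at h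
  fin_cases k <;> simpa using h

/-- A generic point is not a complex point. -/
theorem IsX.not_complex {x : Fin 4 → E} {v : Fin 3 → E} (hX : IsX Q x v) {s : E}
    {o₀ : Fin 4 → ℂ} {v₀ : Fin 3 → ℂ} (h1 : x = s • fun j => algebraMap ℂ E (o₀ j))
    (h2 : v = s • fun j => algebraMap ℂ E (v₀ j)) : False := by
  have h3 : s * algebraMap ℂ E (o₀ 0) = 1 := by
    have h4 := congrFun h1 0
    rw [hX.one] at h4
    exact h4.symm
  have h4 : s = algebraMap ℂ E (o₀ 0)⁻¹ := by
    rw [map_inv₀]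
    exact eq_inv_of_mul_eq_one_left h3
  have h5 : (⊤ : IntermediateField ℂ E) = ⊥ := by
    rw [← hX.top, ← le_bot_iff, IntermediateField.adjoin_le_iff]
    rintro _ (⟨j, rfl⟩ | ⟨j, rfl⟩)
    · rw [h1, h4]
      exact ⟨(o₀ 0)⁻¹ * o₀ j, by simp⟩
    · rw [h2, h4]
      exact ⟨(o₀ 0)⁻¹ * v₀ j, by simp⟩
  have h6 : Algebra.IsAlgebraic ℂ E := by
    refine ⟨fun a => ?_⟩
    have h7 : a ∈ (⊥ : IntermediateField ℂ E) := by
      rw [← h5]
      exact IntermediateField.mem_top
    obtain ⟨c, rfl⟩ := IntermediateField.mem_bot.1 h7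
    exact isAlgebraic_algebraMap c
  have h7 : Algebra.trdeg ℂ E = 0 := trdeg_eq_zero
  rw [hX.trdeg] at h7
  exact two_ne_zero h7

/-- The singular points of the Steiner surface are on its double lines. -/
theorem gs4_cases [CharZero E] {y : Fin 4 → E} (h : gs4 y = 0) :
    (y 2 = 0 ∧ y 3 = 0) ∨ (y 1 = 0 ∧ y 3 = 0) ∨ (y 1 = 0 ∧ y 2 = 0) := by
  have g0 : -(2 * (y 1 * y 2 * y 3)) = 0 := congrFun h 0
  have g1 : 2 * (y 1 * y 3 ^ 2) + 2 * (y 1 * y 2 ^ 2) - 2 * (y 0 * y 2 * y 3) = 0 :=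
    congrFun h 1
  have g2 : 2 * (y 2 * y 3 ^ 2) + 2 * (y 1 ^ 2 * y 2) - 2 * (y 0 * y 1 * y 3) = 0 :=
    congrFun h 2
  have g3 : 2 * (y 2 ^ 2 * y 3) + 2 * (y 1 ^ 2 * y 3) - 2 * (y 0 * y 1 * y 2) = 0 :=
    congrFun h 3
  have two : ∀ {u v : E}, u ^ 2 * v = 0 → u = 0 ∨ v = 0 := by
    intro u v h
    rcases mul_eq_zero.1 h with h | h
    · exact Or.inl (pow_eq_zero_iff two_ne_zero |>.1 h)
    · exact Or.inr h
  have g0' : y 1 * (y 2 * y 3) = 0 := by linear_combination -(1 / 2) * g0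
  rcases mul_eq_zero.1 g0' with h1 | h1
  · rw [h1] at g2
    have h4 : y 3 ^ 2 * y 2 = 0 := by linear_combination (1 / 2) * g2
    rcases two h4 with h5 | h5
    · exact Or.inr (Or.inl ⟨h1, h5⟩)
    · exact Or.inr (Or.inr ⟨h1, h5⟩)
  · rcases mul_eq_zero.1 h1 with h2 | h2
    · rw [h2] at g1
      have h4 : y 3 ^ 2 * y 1 = 0 := by linear_combination (1 / 2) * g1
      rcases two h4 with h5 | h5
      · exact Or.inl ⟨h2, h5⟩
      · exact Or.inr (Or.inr ⟨h5, h2⟩)
    · rw [h2] at g1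
      have h4 : y 2 ^ 2 * y 1 = 0 := by linear_combination (1 / 2) * g1
      rcases two h4 with h5 | h5
      · exact Or.inl ⟨h5, h2⟩
      · exact Or.inr (Or.inl ⟨h5, h2⟩)

/-- **The octic of an irreducible surface is irreducible.** -/
theorem IsoX.irreducible_of_gen (hQ : ∀ i, (Q i).IsSymm) (hs : IsoX Q) (hfin : NoBase Q)
    {x : Fin 4 → E} {v : Fin 3 → E} (hX : IsX Q x v)
    (hgen : ∀ (n : ℕ) (P : MvPolynomial (Fin 4) ℂ), P.IsHomogeneous n → aeval x P = 0 →
      ∀ o : Fin 4 → ℂ, st (qq Q o) = 0 → aeval o P = 0) : Irreducible (octic Q) := by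
  classical
  have : CharZero E := charZero_of_injective_algebraMap (algebraMap ℂ E).injective
  have hF0 := octic_ne_zero hfin
  have hx0 : aeval x (octic Q) = 0 := by
    rw [aeval_octic, hX.eq, st_ee]
  -- an irreducible factor vanishing at the generic point
  obtain ⟨f, hf, ⟨g, hg⟩, hfx⟩ : ∃ f, Irreducible f ∧ f ∣ octic Q ∧ aeval x f = 0 := by
    have h1 := (UniqueFactorizationMonoid.factors_prod hF0)
    obtain ⟨w, hw⟩ := h1
    have h2 : aeval x (UniqueFactorizationMonoid.factors (octic Q)).prod = 0 := by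
      have h3 := hx0
      rw [← hw, map_mul] at h3
      exact (mul_eq_zero.1 h3).resolve_right (w.isUnit.map (aeval x)).ne_zero
    rw [map_multiset_prod, Multiset.prod_eq_zero_iff, Multiset.mem_map] at h2
    obtain ⟨f, hf, hf0⟩ := h2
    exact ⟨f, UniqueFactorizationMonoid.irreducible_of_factor f hf,
      UniqueFactorizationMonoid.dvd_of_mem_factors hf, hf0⟩
  have hhom := octic_homogeneous Q
  obtain ⟨m, hfm⟩ := homog_of_mul (hg ▸ hhom) (hg ▸ hF0)
  have hfo := hgen m f hfm hfx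
  by_contra hirr
  -- the second factor
  have hgu : ¬ IsUnit g := by
    intro hu
    apply hirr
    have h1 : Associated f (octic Q) := ⟨hu.unit, by rw [hg]; rfl⟩
    exact h1.irreducible hf
  have hg0 : g ≠ 0 := by
    intro h
    rw [h, mul_zero] at hg
    exact hF0 hg
  obtain ⟨h, hh, hhg⟩ := WfDvdMonoid.exists_irreducible_factor hgu hg0
  have hhf : h ∣ f := by
    have h1 : f ∈ vanishingIdeal ℂ (zeroLocus ℂ (Ideal.span {h})) := by
      rw [mem_vanishingIdeal_iff]
      intro o ho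
      rw [mem_zeroLocus_iff] at ho
      refine hfo o ?_
      rw [← aeval_octic, hg, map_mul]
      obtain ⟨k, hk⟩ := hhg
      rw [hk, map_mul, ho h (Ideal.mem_span_singleton_self h), zero_mul, mul_zero]
    rw [vanishingIdeal_zeroLocus_eq_radical] at h1
    have h2 : (Ideal.span {h}).IsPrime := by
      rw [Ideal.span_singleton_prime hh.ne_zero]
      exact hh.prime
    rw [h2.radical, Ideal.mem_span_singleton] at h1
    exact h1
  have hfg : f ∣ g := ((hh.associated_of_dvd hf hhf).symm.dvd).trans hhg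
  have hgx : aeval x g = 0 := by
    obtain ⟨k, hk⟩ := hfg
    rw [hk, map_mul, hfx, zero_mul]
  -- the gradient vanishes
  have hgrad : gs4 (qq Q x) = 0 := by
    by_contra hne
    obtain ⟨s, t, o₀, v₀, l₀, -, -, h1, h2, -⟩ := hs.ext hX.eq (Or.inl fun h0 => by
      have h1 := hX.one
      rw [h0] at h1
      exact zero_ne_one h1) hne (sum_gs4_of_sq hQ hg hfx hgx) (by rw [hX.eq]; exact EE_gs4 v)
    exact hX.not_complex h1 h2
  have hq : ∀ l, qq Q x l = 0 → ∀ o : Fin 4 → ℂ, st (qq Q o) = 0 → qq Q o l = 0 := by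
    intro l h1 o ho
    rw [← aeval_qq_X]
    exact hgen 2 _ (qq_X_homogeneous Q l) (by rw [aeval_qq_X]; exact h1) o ho
  have hm : 0 < m := by
    by_contra hn
    apply hf.not_isUnit
    have h1 : m = 0 := by omega
    subst h1
    have h2 := MvPolynomial.totalDegree_eq_zero_iff_eq_C.1 (hfm.totalDegree hf.ne_zero)
    rw [h2]
    apply IsUnit.map
    rw [isUnit_iff_ne_zero]
    intro h3
    rw [h3, map_zero] at h2
    exact hf.ne_zero h2
  -- a base point
  have key : ∀ i j k : Fin 4, (∀ l, l = 0 ∨ l = i ∨ l = j ∨ l = k) → qq Q x j = 0 →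
      qq Q x k = 0 → False := by
    intro i j k hijk hj hk
    obtain ⟨z, hz, hz0⟩ := exists_zero_three ![f, qq Q (MvPolynomial.X : Fin 4 → _) 0,
      qq Q (MvPolynomial.X : Fin 4 → MvPolynomial (Fin 4) ℂ) i] ![m, 2, 2] (by
        intro l
        fin_cases l
        · exact hm
        · exact two_pos
        · exact two_pos) (by
        intro l
        fin_cases l
        · exact hfm
        · exact qq_X_homogeneous Q 0
        · exact qq_X_homogeneous Q i)
    have z0 : aeval z f = 0 := hz0 0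
    have z1 : qq Q z 0 = 0 := by
      rw [← aeval_qq_X]
      exact hz0 1
    have z2 : qq Q z i = 0 := by
      rw [← aeval_qq_X]
      exact hz0 2
    have z3 : st (qq Q z) = 0 := by
      rw [← aeval_octic, hg, map_mul, z0, zero_mul]
    apply hz
    apply hfin
    funext l
    rcases hijk l with rfl | rfl | rfl | rfl
    · exact z1
    · exact z2
    · exact hq _ hj z z3
    · exact hq _ hk z z3
  rcases gs4_cases hgrad with ⟨c1, c2⟩ | ⟨c1, c2⟩ | ⟨c1, c2⟩
  · exact key 1 2 3 (by decide) c1 c2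
  · exact key 2 1 3 (by decide) c1 c2
  · exact key 3 1 2 (by decide) c1 c2

end der

end Vale.Agent.P297.C8
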