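import Vale.Agent.P297.H55.Iso.Nd
import Vale.Agent.P297.H212.Camp.Smooth8

/-!
Centres of reflections of the web.
-/

set_option linter.unusedSectionVars false
set_option linter.style.haveILetI false

open IntermediateField Polynomial

namespace Vale.Agent.P297.H55.Nd

open Vale.Agent.P297 Vale.Agent.P297.Gen Vale.Agent.P297.Z3 Vale.Agent.P297.C8
open Vale.Agent.P297.H72 Vale.Agent.P297.H777 Vale.Agent.P297.H637 Vale.Agent.P297.H212.Camp

/-- The complex vector in a field of larger transcendence degree. -/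
def al {n : ℕ} (N : Type) [Field N] [Algebra ℂ N] (z : Fin n → ℂ) : Fin n → N :=
  fun j => algebraMap ℂ N (z j)

/-- The linear form with complex coefficients. -/
def lf {N : Type} [Field N] [Algebra ℂ N] (L : Fin 4 → ℂ) (w : Fin 4 → N) : N :=
  ∑ a, algebraMap ℂ N (L a) * w a

/-- `x` is the centre of a reflection of the web, with linear form `L`. -/
structure Cen (Q : Web) (x L : Fin 4 → ℂ) : Prop where
  ne : x ≠ 0
  form : ∀ w : Fin 4 → ℂ, qb Q x w = (∑ a, L a * w a) • qq Q x

section

variable {N : Type} [Field N] [Algebra ℂ N] {Q : Web}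

theorem lf_add (L : Fin 4 → ℂ) (u w : Fin 4 → N) : lf L (u + w) = lf L u + lf L w := by
  simp only [lf, Pi.add_apply, mul_add, Finset.sum_add_distrib]

theorem lf_smul (L : Fin 4 → ℂ) (c : N) (w : Fin 4 → N) : lf L (c • w) = c * lf L w := by
  simp only [lf, Pi.smul_apply, smul_eq_mul, Finset.mul_sum]
  exact Finset.sum_congr rfl fun a _ => by ring

theorem lf_sub (L : Fin 4 → ℂ) (u w : Fin 4 → N) : lf L (u - w) = lf L u - lf L w := by
  simp only [lf, Pi.sub_apply, mul_sub, Finset.sum_sub_distrib]

theorem lf_al (L x : Fin 4 → ℂ) : lf L (al N x) = algebraMap ℂ N (∑ a, L a * x a) := by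
  simp only [lf, al, map_sum, map_mul]

theorem lf_comb (L M : Fin 4 → ℂ) (α β : ℂ) (w : Fin 4 → N) :
    lf (α • L - β • M) w = algebraMap ℂ N α * lf L w - algebraMap ℂ N β * lf M w := by
  simp only [lf, Pi.sub_apply, Pi.smul_apply, smul_eq_mul, map_sub, map_mul, Finset.mul_sum,
    ← Finset.sum_sub_distrib]
  exact Finset.sum_congr rfl fun a _ => by ring

theorem lf_zero (w : Fin 4 → N) : lf 0 w = 0 := by
  simp [lf]

/-- The form over an extension. -/
theorem Cen.ext {x L : Fin 4 → ℂ} (h : Cen Q x L) (w : Fin 4 → N) :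
    qb Q (al N x) w = lf L w • al N (qq Q x) := by
  funext i
  have h1 : ∀ b, ∑ a, Q i a b * x a = L b * qq Q x i := by
    intro b
    have h2 := congrFun (h.form (Pi.single b 1)) i
    have h3 : ∑ a, L a * (Pi.single b (1 : ℂ) : Fin 4 → ℂ) a = L b := by
      simp [Pi.single_apply]
    rw [h3, Pi.smul_apply, smul_eq_mul] at h2
    rw [← h2, qb_apply]
    refine Finset.sum_congr rfl fun a _ => ?_
    rw [Finset.sum_eq_single b]
    · rw [Pi.single_eq_same, mul_one]
      rfl
    · intro c _ hc
      rw [Pi.single_eq_of_ne hc, mul_zero, mul_zero]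
    · intro hb
      exact absurd (Finset.mem_univ _) hb
  rw [qb_apply, Finset.sum_comm]
  simp only [lf, al, Pi.smul_apply, smul_eq_mul, Finset.sum_mul]
  refine Finset.sum_congr rfl fun b _ => ?_
  have h2 := congrArg (algebraMap ℂ N) (h1 b)
  rw [map_sum, map_mul] at h2
  have h3 : ∑ a, algebraMap ℂ N (Q i a b) * (algebraMap ℂ N (x a) * w b) =
      (∑ a, algebraMap ℂ N (Q i a b * x a)) * w b := by
    rw [Finset.sum_mul]
    refine Finset.sum_congr rfl fun a _ => ?_
    rw [map_mul]
    ring
  rw [h3, h2]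
  ring

theorem Cen.self {x L : Fin 4 → ℂ} (h : Cen Q x L) (hfin : NoBase Q) : ∑ a, L a * x a = 1 := by
  have h1 : qq Q x ≠ 0 := fun h2 => h.ne (hfin x h2)
  obtain ⟨i, hi⟩ := exists_coord_ne h1
  have h2 : qq Q x i = (∑ a, L a * x a) * qq Q x i := congrFun (h.form x) i
  apply mul_right_cancel₀ hi
  rw [one_mul]
  exact h2.symm

theorem Cen.other {x L y M : Fin 4 → ℂ} (h : Cen Q x L) (h' : Cen Q y M) (hfin : NoBase Q)
    (hQ : ∀ i, (Q i).IsSymm) (hind : LinearIndependent ℂ ![x, y]) : ∑ a, L a * y a = 0 := by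
  by_contra hne
  have h1 : qb Q x y = (∑ a, L a * y a) • qq Q x := h.form y
  have h2 : qb Q y x = (∑ a, M a * x a) • qq Q y := h'.form x
  rw [qb_comm hQ y x] at h2
  set α := ∑ a, L a * y a with hα
  set β := ∑ a, M a * x a with hβ
  have hx0 : qq Q x ≠ 0 := fun h3 => h.ne (hfin x h3)
  have h3 : qq Q x = (α⁻¹ * β) • qq Q y := by
    rw [mul_smul, ← h2, h1, smul_smul, inv_mul_cancel₀ hne, one_smul]
  have hβ0 : β ≠ 0 := by
    intro h4
    apply hx0
    rw [h3, h4, mul_zero, zero_smul]
  have hc : α⁻¹ * β ≠ 0 := mul_ne_zero (inv_ne_zero hne) hβ0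
  obtain ⟨r, hr⟩ := IsAlgClosed.exists_pow_nat_eq (β ^ 2 - α⁻¹ * β) (n := 2) two_pos
  obtain ⟨s, hs⟩ : ∃ s, s = (r - β) / (α⁻¹ * β) := ⟨_, rfl⟩
  have h5 : s ^ 2 * (α⁻¹ * β) + 2 * s * β + 1 = 0 := by
    rw [hs]
    field_simp
    linear_combination α * hr - β * mul_inv_cancel₀ hne
  have h6 : qq Q (s • x + y) = 0 := by
    rw [qq_add hQ, qq_smul, qb_smul_left, h2, h3, smul_smul, smul_smul, smul_smul]
    have h7 : (s ^ 2 * (α⁻¹ * β)) • qq Q y + (2 * s * β) • qq Q y + (1 : ℂ) • qq Q y = 0 := by
      rw [← add_smul, ← add_smul, h5, zero_smul]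
    rw [one_smul] at h7
    rw [← h7]
  have h7 := hfin _ h6
  rw [LinearIndependent.pair_iff] at hind
  have h8 := (hind s 1 (by rw [one_smul]; exact h7)).2
  exact one_ne_zero h8

/-- A linear form with complex coefficients does not vanish at a generic point. -/
theorem lf_ne {K : Type} [Field K] [Algebra ℂ K] {X : Fin 4 → K} (hx : C8.IsFF Q X)
    {o : Fin 4 → N} (ho : GenW Q o) {L : Fin 4 → ℂ} (h : lf L o = 0) : L = 0 := by
  by_contra hL
  have hf : (∑ a, MvPolynomial.C (L a) * MvPolynomial.X a : MvPolynomial (Fin 4) ℂ).IsHomogeneous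
      1 := by
    refine MvPolynomial.IsHomogeneous.sum _ _ _ fun a _ => ?_
    have h4 := (MvPolynomial.isHomogeneous_C (Fin 4) (L a)).mul (MvPolynomial.isHomogeneous_X ℂ a)
    rwa [zero_add] at h4
  refine form_ne hx ho hf (by norm_num) ?_ ?_
  · intro h4
    apply hL
    funext b
    have h5 := congrArg (MvPolynomial.aeval (Pi.single b 1 : Fin 4 → ℂ)) h4
    simp only [map_sum, map_mul, MvPolynomial.aeval_C, MvPolynomial.aeval_X, map_zero] at h5
    simpa [Pi.single_apply] using h5
  · simp only [map_sum, map_mul, MvPolynomial.aeval_C, MvPolynomial.aeval_X]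
    exact h

/-- The product of two reflections. -/
def rr (x L y M : Fin 4 → ℂ) (o : Fin 4 → N) : Fin 4 → N :=
  o - (2 * lf L o) • al N x - (2 * lf M o) • al N y

theorem qq_rr {x L y M : Fin 4 → ℂ} (h : Cen Q x L) (h' : Cen Q y M)
    (hQ : ∀ i, (Q i).IsSymm) (hxy : ∑ a, L a * y a = 0) (o : Fin 4 → N) :
    qq Q (rr x L y M o) = qq Q o := by
  have e1 : rr x L y M o = o + ((-(2 * lf L o)) • al N x + (-(2 * lf M o)) • al N y) := by
    unfold rr
    module
  have e2 : qq Q (al N x) = al N (qq Q x) := by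
    funext i
    exact (map_qq Q (Algebra.ofId ℂ N) x i).symm
  have e3 : qq Q (al N y) = al N (qq Q y) := by
    funext i
    exact (map_qq Q (Algebra.ofId ℂ N) y i).symm
  have e4 : qb Q (al N x) (al N y) = 0 := by
    rw [h.ext, lf_al, hxy, map_zero, zero_smul]
  rw [e1, qq_add hQ, qq_add hQ, qb_add_right, qb_smul_right, qb_smul_right, qb_smul_left,
    qb_smul_right, e4, qb_comm hQ o, qb_comm hQ o, h.ext, h'.ext, qq_smul, qq_smul, e2, e3]
  module

end

section four

variable {N : Type} [Field N] [Algebra ℂ N] {Q : Web}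

/-- Four reflections. -/
structure Four (Q : Web) (C L : Fin 4 → Fin 4 → ℂ) : Prop where
  cen : ∀ i, Cen Q (C i) (L i)
  ind : ∀ i j, i ≠ j → LinearIndependent ℂ ![C i, C j]

variable {C L : Fin 4 → Fin 4 → ℂ} {K : Type} [Field K] [Algebra ℂ K] {X : Fin 4 → K}

/-- **The pairs** which differ by two reflections. -/
theorem Four.pair (h : Four Q C L) (hQ : ∀ i, (Q i).IsSymm) (hfin : NoBase Q)
    (hx : C8.IsFF Q X) {i j k l : Fin 4} (hij : i ≠ j) (hik : i ≠ k) (hjk : j ≠ k)
    (hil : i ≠ l) (hjl : j ≠ l) (hkl : k ≠ l) {o : Fin 4 → N} (ho : GenW Q o) :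
    PairN Q o (rr (C i) (L i) (C j) (L j) o) := by
  have h2 := char_two N
  have hself : ∀ i, ∑ a, L i a * C i a = 1 := fun i => (h.cen i).self hfin
  have hoth : ∀ i j, i ≠ j → ∑ a, L i a * C j a = 0 := fun i j hij =>
    (h.cen i).other (h.cen j) hfin hQ (h.ind i j hij)
  have nd' : ∀ (c : N) (z : Fin 4 → ℂ),
      o - rr (C i) (L i) (C j) (L j) o ≠ c • (fun j => algebraMap ℂ N (z j)) := by
    intro c z hz
    have e1 : (2 * lf (L i) o) • al N (C i) + (2 * lf (L j) o) • al N (C j) = c • al N z := by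
      rw [show c • al N z = c • (fun j => algebraMap ℂ N (z j)) from rfl, ← hz, rr]
      module
    have e2 := congrArg (lf (L i)) e1
    have e3 := congrArg (lf (L j)) e1
    rw [lf_add, lf_smul, lf_smul, lf_smul, lf_al, lf_al, lf_al, hself, hoth i j hij, map_one,
      map_zero, mul_one, mul_zero, add_zero] at e2
    rw [lf_add, lf_smul, lf_smul, lf_smul, lf_al, lf_al, lf_al, hself, hoth j i hij.symm, map_one,
      map_zero, mul_one, mul_zero, zero_add] at e3
    set α := ∑ a, L i a * z a with hα
    set β := ∑ a, L j a * z a with hβ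
    have e4 : lf (β • L i - α • L j) o = 0 := by
      rw [lf_comb]
      have e5 : 2 * (algebraMap ℂ N β * lf (L i) o - algebraMap ℂ N α * lf (L j) o) = 0 := by
        linear_combination algebraMap ℂ N β * e2 - algebraMap ℂ N α * e3
      exact (mul_eq_zero.1 e5).resolve_left h2
    have e5 := lf_ne hx ho e4
    have e6 : β = 0 := by
      have e7 : ∑ a, (β • L i - α • L j) a * C i a = 0 := by
        rw [e5]
        simp
      have e8 : ∑ a, (β • L i - α • L j) a * C i a =
          β * ∑ a, L i a * C i a - α * ∑ a, L j a * C i a := by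
        simp only [Pi.sub_apply, Pi.smul_apply, smul_eq_mul, Finset.mul_sum,
          ← Finset.sum_sub_distrib]
        exact Finset.sum_congr rfl fun a _ => by ring
      rw [e8, hself, hoth j i hij.symm] at e7
      linear_combination e7
    have e7 : α = 0 := by
      have e7 : ∑ a, (β • L i - α • L j) a * C j a = 0 := by
        rw [e5]
        simp
      have e8 : ∑ a, (β • L i - α • L j) a * C j a =
          β * ∑ a, L i a * C j a - α * ∑ a, L j a * C j a := by
        simp only [Pi.sub_apply, Pi.smul_apply, smul_eq_mul, Finset.mul_sum,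
          ← Finset.sum_sub_distrib]
        exact Finset.sum_congr rfl fun a _ => by ring
      rw [e8, hself, hoth i j hij] at e7
      linear_combination -e7
    rw [e7, map_zero, mul_zero] at e2
    have e8 := lf_ne hx ho ((mul_eq_zero.1 e2).resolve_left h2)
    have e9 := hself i
    rw [e8] at e9
    simp at e9
  have nd : ∀ (c : N) (z : Fin 4 → ℂ),
      o + rr (C i) (L i) (C j) (L j) o ≠ c • (fun j => algebraMap ℂ N (z j)) := by
    intro c z hz
    let P : Fin 4 → Fin 4 → ℂ := fun a =>
      Pi.single a 1 - (C i a • L i + C j a • L j)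
    have hP : ∀ a, lf (P a) o = o a - lf (L i) o * algebraMap ℂ N (C i a) -
        lf (L j) o * algebraMap ℂ N (C j a) := by
      intro a
      simp only [P, lf, Pi.sub_apply, Pi.add_apply, Pi.smul_apply, smul_eq_mul, map_sub, map_add,
        map_mul, sub_mul, add_mul, Finset.sum_sub_distrib, Finset.sum_add_distrib, Finset.sum_mul]
      have e1 : ∑ b, algebraMap ℂ N ((Pi.single a (1 : ℂ) : Fin 4 → ℂ) b) * o b = o a := by
        rw [Finset.sum_eq_single a]
        · rw [Pi.single_eq_same, map_one, one_mul]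
        · intro b _ hb
          rw [Pi.single_eq_of_ne hb, map_zero, zero_mul]
        · intro hb
          exact absurd (Finset.mem_univ _) hb
      rw [e1, sub_sub]
      congr 2
      · exact Finset.sum_congr rfl fun b _ => by ring
      · exact Finset.sum_congr rfl fun b _ => by ring
    have hz' : ∀ a, 2 * lf (P a) o = c * algebraMap ℂ N (z a) := by
      intro a
      have e1 := congrFun hz a
      simp only [rr, al, Pi.add_apply, Pi.sub_apply, Pi.smul_apply, smul_eq_mul] at e1
      rw [hP]
      linear_combination e1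
    have hPC : ∀ m, m ≠ i → m ≠ j → ∀ a, ∑ b, P a b * C m b = C m a := by
      intro m hmi hmj a
      have e1 : ∑ b, P a b * C m b = ∑ b, (Pi.single a (1 : ℂ) : Fin 4 → ℂ) b * C m b -
          (C i a * ∑ b, L i b * C m b + C j a * ∑ b, L j b * C m b) := by
        simp only [P, Pi.sub_apply, Pi.add_apply, Pi.smul_apply, smul_eq_mul, Finset.mul_sum,
          ← Finset.sum_add_distrib, ← Finset.sum_sub_distrib]
        exact Finset.sum_congr rfl fun b _ => by ring
      rw [e1, hoth i m (Ne.symm hmi), hoth j m (Ne.symm hmj)]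
      simp [Pi.single_apply]
    have key : ∀ a b, z b • P a - z a • P b = 0 := by
      intro a b
      apply lf_ne hx ho
      rw [lf_comb]
      have e5 : 2 * (algebraMap ℂ N (z b) * lf (P a) o - algebraMap ℂ N (z a) * lf (P b) o) =
          0 := by
        linear_combination algebraMap ℂ N (z b) * hz' a - algebraMap ℂ N (z a) * hz' b
      exact (mul_eq_zero.1 e5).resolve_left h2
    have key2 : ∀ m, m ≠ i → m ≠ j → ∀ a b, z b * C m a = z a * C m b := by
      intro m hmi hmj a b
      have e1 : ∑ s, (z b • P a - z a • P b) s * C m s = 0 := by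
        rw [key]
        simp
      have e2 : ∑ s, (z b • P a - z a • P b) s * C m s =
          z b * ∑ s, P a s * C m s - z a * ∑ s, P b s * C m s := by
        simp only [Pi.sub_apply, Pi.smul_apply, smul_eq_mul, Finset.mul_sum,
          ← Finset.sum_sub_distrib]
        exact Finset.sum_congr rfl fun s _ => by ring
      rw [e2, hPC m hmi hmj, hPC m hmi hmj] at e1
      linear_combination e1
    by_cases hz0 : z = 0
    · have e1 : ∀ a, P a = 0 := by
        intro a
        apply lf_ne hx ho
        have e2 := hz' a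
        rw [hz0, Pi.zero_apply, map_zero, mul_zero] at e2
        exact (mul_eq_zero.1 e2).resolve_left h2
      apply (h.cen k).ne
      funext a
      have e2 := hPC k hik.symm hjk.symm a
      rw [e1] at e2
      simpa using e2.symm
    · obtain ⟨b, hb⟩ := exists_coord_ne hz0
      have e1 : (C l b) • C k + (-(C k b)) • C l = 0 := by
        funext a
        have e2 := key2 k hik.symm hjk.symm a b
        have e3 := key2 l hil.symm hjl.symm a b
        simp only [Pi.add_apply, Pi.smul_apply, smul_eq_mul, Pi.zero_apply]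
        apply mul_left_cancel₀ hb
        linear_combination C l b * e2 - C k b * e3
      have e2 := h.ind k l hkl
      rw [LinearIndependent.pair_iff] at e2
      obtain ⟨e3, e4⟩ := e2 _ _ e1
      apply (h.cen l).ne
      funext a
      have e5 := key2 l hil.symm hjl.symm a b
      rw [e3, mul_zero] at e5
      exact (mul_eq_zero.1 e5).resolve_left hb
  refine ⟨ho, qq_rr (h.cen i) (h.cen j) hQ (hoth i j hij) o, ?_, ?_, nd, nd'⟩
  · intro e
    apply nd' 0 0
    rw [e, sub_self, zero_smul]
  · intro e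
    apply nd 0 0
    rw [e, zero_smul]
    exact add_neg_cancel o

/-- The three pairs. -/
theorem Four.pair_comp (h : Four Q C L) (hQ : ∀ i, (Q i).IsSymm) (hfin : NoBase Q)
    {i j k : Fin 4} (hij : i ≠ j) (hik : i ≠ k) (hjk : j ≠ k) (o : Fin 4 → N) :
    rr (C j) (L j) (C k) (L k) (rr (C i) (L i) (C j) (L j) o) =
      rr (C i) (L i) (C k) (L k) o := by
  have hself : ∀ i, ∑ a, L i a * C i a = 1 := fun i => (h.cen i).self hfin
  have hoth : ∀ i j, i ≠ j → ∑ a, L i a * C j a = 0 := fun i j hij =>
    (h.cen i).other (h.cen j) hfin hQ (h.ind i j hij)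
  have e1 : lf (L j) (rr (C i) (L i) (C j) (L j) o) = -lf (L j) o := by
    rw [rr, lf_sub, lf_sub, lf_smul, lf_smul, lf_al, lf_al, hself, hoth j i hij.symm, map_one,
      map_zero]
    ring
  have e2 : lf (L k) (rr (C i) (L i) (C j) (L j) o) = lf (L k) o := by
    rw [rr, lf_sub, lf_sub, lf_smul, lf_smul, lf_al, lf_al, hoth k i hik.symm,
      hoth k j hjk.symm, map_zero]
    ring
  have e3 : rr (C j) (L j) (C k) (L k) (rr (C i) (L i) (C j) (L j) o) =
      rr (C i) (L i) (C j) (L j) o - (2 * lf (L j) (rr (C i) (L i) (C j) (L j) o)) • al N (C j) -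
        (2 * lf (L k) (rr (C i) (L i) (C j) (L j) o)) • al N (C k) := rfl
  rw [e3, e1, e2, rr, rr]
  module

end four

end Vale.Agent.P297.H55.Nd
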