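import Vale.Agent.P297.H777.SmoothR

/-!
Intersections of four quadrics `Q(o) = e(v)` with isolated hypersurface singularities.
-/

set_option linter.unusedSectionVars false
set_option linter.style.haveILetI false

open IntermediateField Polynomial

namespace Vale.Agent.P297.C8

open Vale.Agent.P297.H777 Vale.Agent.P297.H212.Camp Vale.Agent.P297.Z3

/-- The surface `Q(o) = e(v)` has only finitely many singular points, and they are hypersurface
points: up to scalars there are only finitely many singular points `(o, v)` together with a relation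
`l` between the gradients of the four equations. -/
def IsoX (Q : Web) : Prop :=
  ∃ Z : Finset ((Fin 4 → ℂ) × (Fin 3 → ℂ) × (Fin 4 → ℂ)),
    ∀ (o : Fin 4 → ℂ) (v : Fin 3 → ℂ) (l : Fin 4 → ℂ), qq Q o = ee v → (o ≠ 0 ∨ v ≠ 0) → l ≠ 0 →
      (∀ u : Fin 4 → ℂ, ∑ i, l i * qb Q o u i = 0) →
      (∀ u : Fin 3 → ℂ, ∑ i, l i * eb v u i = 0) →
      ∃ z ∈ Z, ∃ s t : ℂ, s ≠ 0 ∧ t ≠ 0 ∧ o = s • z.1 ∧ v = s • z.2.1 ∧ l = t • z.2.2

theorem SmoothX.isoX {Q : Web} (h : SmoothX Q) : IsoX Q :=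
  ⟨∅, fun o v l h1 h2 h3 h4 h5 => absurd (h o v h1 h2 l h4 h5) h3⟩

section ext

variable {N : Type} [Field N] [Algebra ℂ N] {Q : Web}

/-- A specialisation which avoids finitely many points. -/
theorem exists_cpoint_notMem {ι : Type} [Finite ι] (w : ι → N) (F : Finset (ι → ℂ))
    (hF : ∀ f ∈ F, w ≠ fun i => algebraMap ℂ N (f i)) : ∃ z : ι → ℂ, z ∉ F ∧
      ∀ p : MvPolynomial ι ℂ, MvPolynomial.aeval w p = 0 → MvPolynomial.aeval z p = 0 := by
  classical
  have hj : ∀ f : ι → ℂ, f ∈ F → ∃ j, w j ≠ algebraMap ℂ N (f j) := by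
    intro f hf
    by_contra hne
    push Not at hne
    exact hF f hf (funext hne)
  choose j hj using hj
  let P : MvPolynomial (Option ι) ℂ :=
    ∏ f ∈ F.attach, (MvPolynomial.X (some (j f.1 f.2)) - MvPolynomial.C (f.1 (j f.1 f.2)))
  let w' : Option ι → N := fun o =>
    o.elim (∏ f ∈ F.attach, (w (j f.1 f.2) - algebraMap ℂ N (f.1 (j f.1 f.2))))⁻¹ w
  have hne : ∏ f ∈ F.attach, (w (j f.1 f.2) - algebraMap ℂ N (f.1 (j f.1 f.2))) ≠ 0 :=
    Finset.prod_ne_zero_iff.2 fun f _ => sub_ne_zero.2 (hj f.1 f.2)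
  obtain ⟨z, hz⟩ := exists_cpoint w'
  refine ⟨fun i => z (some i), ?_, ?_⟩
  · intro hmem
    have h1 := hz (MvPolynomial.X none * P - 1) (by
      simp only [P, map_sub, map_mul, map_one, map_prod, MvPolynomial.aeval_X,
        MvPolynomial.aeval_C]
      change (∏ f ∈ F.attach, (w (j f.1 f.2) - algebraMap ℂ N (f.1 (j f.1 f.2))))⁻¹ *
        ∏ f ∈ F.attach, (w (j f.1 f.2) - algebraMap ℂ N (f.1 (j f.1 f.2))) - 1 = 0
      rw [inv_mul_cancel₀ hne, sub_self])
    simp only [P, map_sub, map_mul, map_one, map_prod, MvPolynomial.aeval_X,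
      MvPolynomial.aeval_C] at h1
    have h2 : ∏ f ∈ F.attach, (z (some (j f.1 f.2)) - algebraMap ℂ ℂ (f.1 (j f.1 f.2))) = 0 :=
      Finset.prod_eq_zero (Finset.mem_attach F ⟨_, hmem⟩) (sub_self _)
    rw [h2, mul_zero, zero_sub] at h1
    exact one_ne_zero (neg_eq_zero.1 h1)
  · intro p hp
    have h1 := hz (MvPolynomial.rename some p) (by
      rw [MvPolynomial.aeval_rename]
      exact hp)
    rw [MvPolynomial.aeval_rename] at h1
    exact h1

/-- **The singular points over an extension are complex points.** -/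
theorem IsoX.ext (h : IsoX Q) {o : Fin 4 → N} {v : Fin 3 → N} (hov : qq Q o = ee v)
    (hne : o ≠ 0 ∨ v ≠ 0) {l : Fin 4 → N} (hl : l ≠ 0)
    (h1 : ∀ u : Fin 4 → N, ∑ i, l i * qb Q o u i = 0) (h2 : EE l v = 0) :
    ∃ (s t : N) (o₀ : Fin 4 → ℂ) (v₀ : Fin 3 → ℂ) (l₀ : Fin 4 → ℂ), s ≠ 0 ∧ t ≠ 0 ∧
      o = s • (fun j => algebraMap ℂ N (o₀ j)) ∧ v = s • (fun j => algebraMap ℂ N (v₀ j)) ∧
      l = t • (fun j => algebraMap ℂ N (l₀ j)) := by
  classical
  obtain ⟨Z, hZ⟩ := h
  obtain ⟨c, hc⟩ := exists_coord_ne hl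
  -- the scaling
  obtain ⟨s, hs, K, hK⟩ : ∃ s : N, s ≠ 0 ∧ ∃ K : Fin 4 ⊕ Fin 3, Sum.elim o v K = s := by
    rcases hne with h3 | h3
    · obtain ⟨k, hk⟩ := exists_coord_ne h3
      exact ⟨o k, hk, Sum.inl k, rfl⟩
    · obtain ⟨k, hk⟩ := exists_coord_ne h3
      exact ⟨v k, hk, Sum.inr k, rfl⟩
  let w : Fin 4 ⊕ (Fin 3 ⊕ Fin 4) → N :=
    Sum.elim (s⁻¹ • o) (Sum.elim (s⁻¹ • v) ((l c)⁻¹ • l))
  let nor : (Fin 4 → ℂ) × (Fin 3 → ℂ) × (Fin 4 → ℂ) → (Fin 4 ⊕ (Fin 3 ⊕ Fin 4) → ℂ) :=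
    fun z => Sum.elim ((Sum.elim z.1 z.2.1 K)⁻¹ • z.1)
      (Sum.elim ((Sum.elim z.1 z.2.1 K)⁻¹ • z.2.1) ((z.2.2 c)⁻¹ • z.2.2))
  obtain ⟨f, hf, hw⟩ : ∃ f ∈ Z.image nor, w = fun i => algebraMap ℂ N (f i) := by
    by_contra hcon
    push Not at hcon
    obtain ⟨z, hzF, hz⟩ := exists_cpoint_notMem w (Z.image nor) hcon
    let Po : Fin 4 → MvPolynomial (Fin 4 ⊕ (Fin 3 ⊕ Fin 4)) ℂ :=
      fun j => MvPolynomial.X (Sum.inl j)
    let Pv : Fin 3 → MvPolynomial (Fin 4 ⊕ (Fin 3 ⊕ Fin 4)) ℂ :=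
      fun j => MvPolynomial.X (Sum.inr (Sum.inl j))
    let Pl : Fin 4 → MvPolynomial (Fin 4 ⊕ (Fin 3 ⊕ Fin 4)) ℂ :=
      fun j => MvPolynomial.X (Sum.inr (Sum.inr j))
    let o' : Fin 4 → ℂ := fun j => z (Sum.inl j)
    let v' : Fin 3 → ℂ := fun j => z (Sum.inr (Sum.inl j))
    let l' : Fin 4 → ℂ := fun j => z (Sum.inr (Sum.inr j))
    have e1 : qq Q o' = ee v' := by
      funext i
      have h3 := hz (qq Q Po i - ee Pv i) (by
        rw [map_sub, map_qq, map_ee]
        simp only [Po, Pv, MvPolynomial.aeval_X]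
        change qq Q (s⁻¹ • o) i - ee (s⁻¹ • v) i = 0
        rw [qq_smul, ee_smul, hov, sub_self])
      rw [map_sub, map_qq, map_ee] at h3
      simp only [Po, Pv, MvPolynomial.aeval_X] at h3
      exact sub_eq_zero.1 h3
    have e2 : Sum.elim o' v' K = 1 := by
      have h3 := hz (Sum.elim Po Pv K - 1) (by
        rw [map_sub, map_one]
        rcases K with k | k
        · change MvPolynomial.aeval w (Po k) - 1 = 0
          simp only [Po, MvPolynomial.aeval_X]
          change s⁻¹ * o k - 1 = 0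
          have hK' : o k = s := hK
          rw [hK', inv_mul_cancel₀ hs, sub_self]
        · change MvPolynomial.aeval w (Pv k) - 1 = 0
          simp only [Pv, MvPolynomial.aeval_X]
          change s⁻¹ * v k - 1 = 0
          have hK' : v k = s := hK
          rw [hK', inv_mul_cancel₀ hs, sub_self])
      rw [map_sub, map_one] at h3
      rcases K with k | k
      · change MvPolynomial.aeval z (Po k) - 1 = 0 at h3
        simp only [Po, MvPolynomial.aeval_X] at h3
        exact sub_eq_zero.1 h3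
      · change MvPolynomial.aeval z (Pv k) - 1 = 0 at h3
        simp only [Pv, MvPolynomial.aeval_X] at h3
        exact sub_eq_zero.1 h3
    have e2' : o' ≠ 0 ∨ v' ≠ 0 := by
      rcases K with k | k
      · left
        intro h4
        have h5 : o' k = 1 := e2
        rw [h4] at h5
        exact zero_ne_one h5
      · right
        intro h4
        have h5 : v' k = 1 := e2
        rw [h4] at h5
        exact zero_ne_one h5
    have e3 : ∀ u : Fin 4 → ℂ, ∑ i, l' i * qb Q o' u i = 0 := by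
      intro u
      have h3 := hz (∑ i, Pl i * qb Q Po (fun j => MvPolynomial.C (u j)) i) (by
        simp only [map_sum, map_mul, map_qb, Po, Pl, MvPolynomial.aeval_X, MvPolynomial.aeval_C]
        change ∑ i, ((l c)⁻¹ * l i) * qb Q (s⁻¹ • o) (fun j => algebraMap ℂ N (u j)) i = 0
        have h4 := h1 (fun j => algebraMap ℂ N (u j))
        rw [qb_smul_left]
        have h5 : ∑ i, ((l c)⁻¹ * l i) * (s⁻¹ • qb Q o fun j => algebraMap ℂ N (u j)) i =
            ((l c)⁻¹ * s⁻¹) * ∑ i, l i * qb Q o (fun j => algebraMap ℂ N (u j)) i := by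
          rw [Finset.mul_sum]
          refine Finset.sum_congr rfl fun i _ => ?_
          simp only [Pi.smul_apply, smul_eq_mul]
          ring
        rw [h5, h4, mul_zero])
      simp only [map_sum, map_mul, map_qb, Po, Pl, MvPolynomial.aeval_X,
        MvPolynomial.aeval_C] at h3
      exact h3
    have e4 : EE l' v' = 0 := by
      funext k
      have h3 := hz (EE Pl Pv k) (by
        have h4 := map_EE (MvPolynomial.aeval w : MvPolynomial _ ℂ →ₐ[ℂ] N).toRingHom Pl Pv k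
        refine h4.trans ?_
        have h5 : (fun j => (MvPolynomial.aeval w : MvPolynomial _ ℂ →ₐ[ℂ] N).toRingHom (Pl j)) =
            (l c)⁻¹ • l := funext fun j => MvPolynomial.aeval_X _ _
        have h6 : (fun j => (MvPolynomial.aeval w : MvPolynomial _ ℂ →ₐ[ℂ] N).toRingHom (Pv j)) =
            s⁻¹ • v := funext fun j => MvPolynomial.aeval_X _ _
        rw [h5, h6, EE_smul, EE_smul_right, h2]
        simp)
      have h4 := map_EE (MvPolynomial.aeval z : MvPolynomial _ ℂ →ₐ[ℂ] ℂ).toRingHom Pl Pv k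
      have h5 : (fun j => (MvPolynomial.aeval z : MvPolynomial _ ℂ →ₐ[ℂ] ℂ).toRingHom (Pl j)) =
          l' := funext fun j => MvPolynomial.aeval_X _ _
      have h6 : (fun j => (MvPolynomial.aeval z : MvPolynomial _ ℂ →ₐ[ℂ] ℂ).toRingHom (Pv j)) =
          v' := funext fun j => MvPolynomial.aeval_X _ _
      rw [h5, h6] at h4
      exact h4.symm.trans h3
    have e5 : l' c = 1 := by
      have h3 := hz (Pl c - 1) (by
        simp only [map_sub, map_one, Pl, MvPolynomial.aeval_X]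
        change (l c)⁻¹ * l c - 1 = 0
        rw [inv_mul_cancel₀ hc, sub_self])
      simp only [map_sub, map_one, Pl, MvPolynomial.aeval_X] at h3
      exact sub_eq_zero.1 h3
    have e6 : l' ≠ 0 := by
      intro h4
      rw [h4] at e5
      exact zero_ne_one e5
    obtain ⟨y, hy, s', t', hs', ht', g1, g2, g3⟩ := hZ o' v' l' e1 e2' e6 e3 (fun u => by
      rw [EE_dot, e4]
      simp)
    apply hzF
    rw [Finset.mem_image]
    refine ⟨y, hy, ?_⟩
    have k1 : s' = (Sum.elim y.1 y.2.1 K)⁻¹ := by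
      have h3 : s' * Sum.elim y.1 y.2.1 K = 1 := by
        rw [← e2, g1, g2]
        rcases K with k | k <;> rfl
      exact eq_inv_of_mul_eq_one_left h3
    have k2 : t' = (y.2.2 c)⁻¹ := by
      have h3 : t' * y.2.2 c = 1 := by
        rw [← e5, g3]
        rfl
      exact eq_inv_of_mul_eq_one_left h3
    funext i
    rcases i with i | i | i
    · have h3 : o' i = (s' • y.1) i := by rw [g1]
      change ((Sum.elim y.1 y.2.1 K)⁻¹ • y.1) i = z (Sum.inl i)
      rw [← k1]
      exact h3.symm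
    · have h3 : v' i = (s' • y.2.1) i := by rw [g2]
      change ((Sum.elim y.1 y.2.1 K)⁻¹ • y.2.1) i = z (Sum.inr (Sum.inl i))
      rw [← k1]
      exact h3.symm
    · have h3 : l' i = (t' • y.2.2) i := by rw [g3]
      change ((y.2.2 c)⁻¹ • y.2.2) i = z (Sum.inr (Sum.inr i))
      rw [← k2]
      exact h3.symm
  refine ⟨s, l c, fun j => f (Sum.inl j), fun j => f (Sum.inr (Sum.inl j)),
    fun j => f (Sum.inr (Sum.inr j)), hs, hc, ?_, ?_, ?_⟩
  · funext j
    have h3 : s⁻¹ * o j = algebraMap ℂ N (f (Sum.inl j)) := congrFun hw (Sum.inl j)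
    rw [Pi.smul_apply, smul_eq_mul, ← h3, mul_inv_cancel_left₀ hs]
  · funext j
    have h3 : s⁻¹ * v j = algebraMap ℂ N (f (Sum.inr (Sum.inl j))) :=
      congrFun hw (Sum.inr (Sum.inl j))
    rw [Pi.smul_apply, smul_eq_mul, ← h3, mul_inv_cancel_left₀ hs]
  · funext j
    have h3 : (l c)⁻¹ * l j = algebraMap ℂ N (f (Sum.inr (Sum.inr j))) :=
      congrFun hw (Sum.inr (Sum.inr j))
    rw [Pi.smul_apply, smul_eq_mul, ← h3, mul_inv_cancel_left₀ hc]

end ext

end Vale.Agent.P297.C8
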