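import Vale.Agent.P297.H55.Sing
import Vale.Agent.P297.H55.Iso.Def

/-!
Isolated singularities: the determinant of the web of the `Q` does not vanish twice along a curve of
the Cayley cubic.
-/

set_option linter.unusedSectionVars false

open IntermediateField Polynomial Matrix

namespace Vale.Agent.P297.C8

open Vale.Agent.P297.Gen

section

variable {N : Type} [Field N] [Algebra ℂ N] [IsAlgClosed N] {Q : Web}

/-- There is no singular point with a moving relation between the gradients. -/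
def SmL (Q : Web) (N : Type) [Field N] [Algebra ℂ N] : Prop :=
  ∀ (o : Fin 4 → N) (v : Fin 3 → N), qq Q o = ee v → (o ≠ 0 ∨ v ≠ 0) → ∀ l : Fin 4 → N,
    (∀ u, ∑ i, l i * qb Q o u i = 0) → (∀ u, ∑ i, l i * eb v u i = 0) → ∀ k, l 0 = 1 →
      Transcendental ℂ (l k) → False

theorem IsoX.smL (h : IsoX Q) : SmL Q N := by
  intro o v hov hne l h1 h2 k h0 hk
  obtain ⟨s, t, o₀, v₀, l₀, -, ht, -, -, hl⟩ := h.ext hov hne (l := l) (fun h3 => by
    rw [h3] at h0
    exact zero_ne_one h0) h1 (funext fun j => by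
    have h3 := h2 (Pi.single j 1)
    rw [EE_dot] at h3
    simpa [Pi.single_apply] using h3)
  have e0 : t * algebraMap ℂ N (l₀ 0) = 1 := by rw [← h0, hl]; rfl
  have ek : l k = t * algebraMap ℂ N (l₀ k) := by rw [hl]; rfl
  apply hk
  have h3 : l₀ 0 ≠ 0 := by
    intro h3
    rw [h3, map_zero, mul_zero] at e0
    exact zero_ne_one e0
  have h4 : t = algebraMap ℂ N (l₀ 0)⁻¹ := by
    rw [map_inv₀]
    exact eq_inv_of_mul_eq_one_left e0
  rw [ek, h4, ← map_mul]
  exact isAlgebraic_algebraMap _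

/-- no singular point -/
theorem no_sing' (hsm : SmL Q N) (hz : ∀ o : Fin 4 → N, qq Q o = 0 → o = 0) {l o : Fin 4 → N}
    {v : Fin 3 → N} {k : Fin 4} (hl : l 0 = 1) (hk : Transcendental ℂ (l k)) (ho : o ≠ 0) (hM : ∀ u, ∑ i, l i * qb Q o u i = 0)
    (hE : ∀ u, ∑ i, l i * eb v u i = 0) {c : N} (hc : qq Q o = c • ee v) : False := by
  have hc0 : c ≠ 0 := by
    rintro rfl
    rw [zero_smul] at hc
    exact ho (hz o hc)
  obtain ⟨r, hr⟩ := IsAlgClosed.exists_pow_nat_eq c (n := 2) two_pos
  have hr0 : r ≠ 0 := by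
    rintro rfl
    exact hc0 (by rw [← hr]; ring)
  refine hsm (r⁻¹ • o) v ?_ (Or.inl (smul_ne_zero (inv_ne_zero hr0) ho)) l (fun u => ?_) hE k hl hk
  · rw [qq_smul, hc, smul_smul, ← hr]
    have h1 : r⁻¹ ^ 2 * r ^ 2 = 1 := by
      rw [← mul_pow, inv_mul_cancel₀ hr0, one_pow]
    rw [h1, one_smul]
  · rw [qb_smul_left]
    have h1 : ∑ i, l i * (r⁻¹ • qb Q o u) i = r⁻¹ * ∑ i, l i * qb Q o u i := by
      rw [Finset.mul_sum]
      refine Finset.sum_congr rfl fun i _ => ?_
      rw [Pi.smul_apply, smul_eq_mul]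
      ring
    rw [h1, hM, mul_zero]

/-- **No double curve.** -/
theorem no_double' (hQ : ∀ i, (Q i).IsSymm) (hsm : SmL Q N)
    (hz : ∀ o : Fin 4 → N, qq Q o = 0 → o = 0) {x y : N} (hx : x ≠ 0) (hy : y ≠ 0)
    {a b k : Fin 4} (hall : ∀ i : Fin 4, i = 0 ∨ i = a ∨ i = b ∨ i = k)
    (hsum : ∀ f : Fin 4 → N, ∑ i, f i = f 0 + f a + f b + f k)
    (hk : Transcendental ℂ (lam x y k)) (hv : vtx x y ≠ 0) (hdet : (MM Q x y).det = 0)
    (hτ : ∀ j, ee (vtx x y) b * qq Q (fun i => (MM Q x y).adjugate i j) a =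
      ee (vtx x y) a * qq Q (fun i => (MM Q x y).adjugate i j) b) : False := by
  obtain ⟨D, hD, hDk⟩ := exists_der hk
  have l0 : lam x y 0 = 1 := rfl
  have d0 : D (lam x y 0) = 0 := by
    rw [l0, ← map_one (algebraMap ℂ N), hD]
  have final : ∀ u : Fin 4 → N, u ≠ 0 → MM Q x y *ᵥ u = 0 →
      ee (vtx x y) b * qq Q u a = ee (vtx x y) a * qq Q u b → False := by
    intro u hu hMu hu2
    have hM := qb_of_ker hQ hMu
    obtain ⟨c, hc⟩ := prop_of (l := lam x y) (d := fun i => D (lam x y i)) (E := ee (vtx x y))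
      (y := qq Q u) hall hsum l0 d0 hDk (ee_ne hv) (eb_vtx hx hy (vtx x y))
      (der_lam_ee D (eb_vtx hx hy)) (hM u) (der_lam_qq hQ D hD hM) hu2
    exact no_sing' hsm hz l0 hk hu hM (eb_vtx hx hy) hc
  obtain ⟨o, ho0, ho⟩ := Matrix.exists_mulVec_eq_zero_iff.2 hdet
  obtain ⟨j, hj⟩ : ∃ j, o j ≠ 0 := by
    by_contra hne
    push Not at hne
    exact ho0 (funext hne)
  by_cases hadj : (MM Q x y).adjugate j j = 0
  · obtain ⟨z, hz0, hzj, hMz⟩ := second_vector (MM_isSymm hQ x y) hj ho hadj
    by_cases hfz : ee (vtx x y) b * qq Q z a - ee (vtx x y) a * qq Q z b = 0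
    · exact final z hz0 hMz (sub_eq_zero.1 hfz)
    · have hdeg : (C (ee (vtx x y) b * qq Q z a - ee (vtx x y) a * qq Q z b) * X ^ 2 +
          C (2 * (ee (vtx x y) b * qb Q o z a - ee (vtx x y) a * qb Q o z b)) * X +
          C (ee (vtx x y) b * qq Q o a - ee (vtx x y) a * qq Q o b) : N[X]).degree ≠ 0 := by
        rw [degree_quadratic hfz]
        exact two_ne_zero
      obtain ⟨β, hβ⟩ := IsAlgClosed.exists_root _ hdeg
      simp only [IsRoot.def, eval_add, eval_mul, eval_C, eval_pow, eval_X] at hβ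
      refine final (o + β • z) ?_ ?_ ?_
      · intro h
        have h1 := congrFun h j
        rw [Pi.add_apply, Pi.smul_apply, hzj, smul_zero, add_zero] at h1
        exact hj h1
      · rw [Matrix.mulVec_add, Matrix.mulVec_smul, ho, hMz, smul_zero, add_zero]
      · rw [qq_add hQ, qq_smul, qb_smul_right]
        simp only [Pi.add_apply, Pi.smul_apply, smul_eq_mul]
        linear_combination hβ
  · refine final (fun i => (MM Q x y).adjugate i j) (fun h => hadj (congrFun h j)) ?_ (hτ j)
    have h1 := Matrix.mul_adjugate (MM Q x y)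
    rw [hdet, zero_smul] at h1
    funext i
    have h2 := congrFun (congrFun h1 i) j
    rw [Matrix.mul_apply] at h2
    exact h2

/-- **No double root.** The determinant of a polynomial matrix through `MM Q x y`. -/
theorem no_double_poly' (hQ : ∀ i, (Q i).IsSymm) (hsm : SmL Q N)
    (hz : ∀ o : Fin 4 → N, qq Q o = 0 → o = 0) {x y : N} (hx : x ≠ 0) (hy : y ≠ 0)
    {a b k : Fin 4} (hall : ∀ i : Fin 4, i = 0 ∨ i = a ∨ i = b ∨ i = k)
    (hsum : ∀ f : Fin 4 → N, ∑ i, f i = f 0 + f a + f b + f k)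
    (hk : Transcendental ℂ (lam x y k)) (hv : vtx x y ≠ 0)
    (A : Matrix (Fin 4) (Fin 4) N[X]) {t s s' τa τb κ : N} (hs : s ≠ 0)
    (hA : ∀ i l, (A i l).eval t = s * MM Q x y i l)
    (hA' : ∀ i l, (derivative (A i l)).eval t = s' * MM Q x y i l +
      τa * algebraMap ℂ N (Q a i l) + τb * algebraMap ℂ N (Q b i l))
    (hb : ee (vtx x y) b = κ * τa) (ha : ee (vtx x y) a = -(κ * τb))
    (hd : A.det.eval t = 0) (hd' : (derivative A.det).eval t = 0) : False := by
  have hmap : (evalRingHom t).mapMatrix A = s • MM Q x y := by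
    ext i l
    rw [RingHom.mapMatrix_apply, Matrix.map_apply, coe_evalRingHom, hA, Matrix.smul_apply,
      smul_eq_mul]
  have hdet : (MM Q x y).det = 0 := by
    have h1 : (evalRingHom t) A.det = ((evalRingHom t).mapMatrix A).det := RingHom.map_det _ _
    rw [hmap, Matrix.det_smul, coe_evalRingHom, hd] at h1
    rcases mul_eq_zero.1 h1.symm with h2 | h2
    · exact absurd h2 (pow_ne_zero _ hs)
    · exact h2
  have hadj : ∀ l j, (A.adjugate l j).eval t = s ^ 3 * (MM Q x y).adjugate l j := by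
    intro l j
    have h1 : (evalRingHom t).mapMatrix A.adjugate = ((evalRingHom t).mapMatrix A).adjugate :=
      RingHom.map_adjugate _ _
    rw [hmap, Matrix.adjugate_smul] at h1
    have h2 := congrFun (congrFun h1 l) j
    rw [RingHom.mapMatrix_apply, Matrix.map_apply, coe_evalRingHom, Matrix.smul_apply,
      smul_eq_mul] at h2
    rw [h2]
    simp
  refine no_double' hQ hsm hz hx hy hall hsum hk hv hdet fun j => ?_
  have hker : ∀ i, ∑ l, MM Q x y i l * (MM Q x y).adjugate l j = 0 := by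
    intro i
    have h1 := Matrix.mul_adjugate (MM Q x y)
    rw [hdet, zero_smul] at h1
    have h2 := congrFun (congrFun h1 i) j
    rw [Matrix.mul_apply] at h2
    exact h2
  have hker' : ∀ l, ∑ i, (MM Q x y).adjugate i j * (A i l).eval t = 0 := by
    intro l
    have h1 : ∀ i, (MM Q x y).adjugate i j * (A i l).eval t =
        s * (MM Q x y l i * (MM Q x y).adjugate i j) := by
      intro i
      rw [hA, (MM_isSymm hQ x y).apply i l]
      ring
    simp only [h1]
    rw [← Finset.mul_sum, hker, mul_zero]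
  have h2 := adj_of_double hd' hker' j
  set u : Fin 4 → N := fun i => (MM Q x y).adjugate i j with hu
  have h3 : ∀ i, ∑ l, (derivative (A i l)).eval t * (A.adjugate l j).eval t =
      s ^ 3 * (τa * ∑ l, algebraMap ℂ N (Q a i l) * u l) +
      s ^ 3 * (τb * ∑ l, algebraMap ℂ N (Q b i l) * u l) := by
    intro i
    have h4 : ∀ l, (derivative (A i l)).eval t * (A.adjugate l j).eval t =
        s ^ 3 * s' * (MM Q x y i l * (MM Q x y).adjugate l j) +
        (s ^ 3 * τa * (algebraMap ℂ N (Q a i l) * u l) +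
        s ^ 3 * τb * (algebraMap ℂ N (Q b i l) * u l)) := by
      intro l
      rw [hA', hadj, hu]
      ring
    simp only [h4]
    rw [Finset.sum_add_distrib, Finset.sum_add_distrib, ← Finset.mul_sum, ← Finset.mul_sum,
      ← Finset.mul_sum, hker, mul_zero, zero_add]
    ring
  simp only [h3] at h2
  have hqq : ∀ c : Fin 4, qq Q u c = ∑ i, u i * ∑ l, algebraMap ℂ N (Q c i l) * u l := by
    intro c
    rw [qq_apply]
    refine Finset.sum_congr rfl fun i _ => ?_
    rw [Finset.mul_sum]
    refine Finset.sum_congr rfl fun l _ => ?_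
    ring
  have h5 : s ^ 3 * (τa * qq Q u a + τb * qq Q u b) = 0 := by
    rw [← h2, hqq, hqq, Finset.mul_sum, Finset.mul_sum, ← Finset.sum_add_distrib,
      Finset.mul_sum]
    refine Finset.sum_congr rfl fun i _ => ?_
    ring
  have h6 := (mul_eq_zero.1 h5).resolve_left (pow_ne_zero _ hs)
  rw [ha, hb]
  linear_combination κ * h6

/-- **No double root**, when `x` is transcendental. -/
theorem no_double_one' (hQ : ∀ i, (Q i).IsSymm) (hsm : SmL Q N)
    (hz : ∀ o : Fin 4 → N, qq Q o = 0 → o = 0) {x y : N} (hx : Transcendental ℂ x) (hy : y ≠ 0)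
    (hd : (A1 Q x).det.eval y = 0) (hd' : (derivative (A1 Q x).det).eval y = 0) : False := by
  have : CharZero N := charZero_of_injective_algebraMap (algebraMap ℂ N).injective
  have hx0 : x ≠ 0 := by
    rintro rfl
    exact hx isAlgebraic_zero
  refine no_double_poly' (a := 2) (b := 3) (k := 1) hQ hsm hz hx0 hy (by decide)
    (fun f => by rw [Fin.sum_univ_four]; ring) (trans_half hx) ?_ (A1 Q x) (t := y) (s := y)
    (s' := 1) (τa := (y - y⁻¹) / 2) (τb := (x * y - (x * y)⁻¹) / 2) (κ := 4 * (x - x⁻¹)) hy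
    (fun i l => A1_eval Q x hy i l) ?_ ?_ ?_ hd hd'
  · intro h
    exact trans_ne hx (congrFun h 0)
  · intro i l
    simp only [A1, MM, lam, Fin.sum_univ_four, Matrix.cons_val, derivative_add, derivative_mul,
      derivative_C, derivative_X, derivative_X_pow, derivative_one, eval_add, eval_mul, eval_C,
      eval_X, eval_pow, eval_one, eval_zero, mul_inv]
    field_simp
    simp
    ring
  · rw [ee_three, vtx]
    simp only [Matrix.cons_val]
    ring
  · rw [ee_two, vtx]
    simp only [Matrix.cons_val]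
    ring

/-- **No double root**, when `x y` is transcendental. -/
theorem no_double_three' (hQ : ∀ i, (Q i).IsSymm) (hsm : SmL Q N)
    (hz : ∀ o : Fin 4 → N, qq Q o = 0 → o = 0) {x y : N} (hx0 : x ≠ 0) (hy : y ≠ 0)
    (hx : Transcendental ℂ (x * y))
    (hd : (A3 Q x y).det.eval 1 = 0) (hd' : (derivative (A3 Q x y).det).eval 1 = 0) :
    False := by
  have : CharZero N := charZero_of_injective_algebraMap (algebraMap ℂ N).injective
  refine no_double_poly' (a := 1) (b := 2) (k := 3) hQ hsm hz hx0 hy (by decide)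
    (fun f => by rw [Fin.sum_univ_four]) (trans_half hx) ?_ (A3 Q x y) (t := 1) (s := 1)
    (s' := 1) (τa := (x - x⁻¹) / 2) (τb := (y⁻¹ - y) / 2) (κ := 4 * ((x * y)⁻¹ - x * y))
    one_ne_zero (fun i l => ?_) ?_ ?_ ?_ hd hd'
  · intro h
    apply trans_ne hx
    have h1 : (x * y)⁻¹ - x * y = 0 := congrFun h 2
    linear_combination -h1
  · rw [A3_eval Q hx0 hy one_ne_zero, mul_one, div_one]
  · intro i l
    simp only [A3, MM, lam, Fin.sum_univ_four, Matrix.cons_val, derivative_add, derivative_mul,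
      derivative_C, derivative_X, derivative_X_pow, eval_add, eval_mul, eval_C,
      eval_X, eval_pow, eval_one, eval_zero]
    field_simp
    simp
    ring
  · rw [ee_two, vtx]
    simp only [Matrix.cons_val]
    ring
  · rw [ee_one, vtx]
    simp only [Matrix.cons_val]
    ring

end

end Vale.Agent.P297.C8
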