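import Vale.Agent.P297.H55.Z8Disc
import Vale.Agent.P297.H55.Iso.Sing
import Vale.Agent.P297.H10.Q8Link

/-!
Isolated singularities: the discriminant of the twins does not vanish identically.
-/

set_option linter.unusedSectionVars false

open IntermediateField Polynomial

namespace Vale.Agent.P297.H55.T8

open Vale.Agent.P297 Vale.Agent.P297.Gen Vale.Agent.P297.G4 Vale.Agent.P297.H10
open Vale.Agent.P297.Z3 Vale.Agent.P297.C8 Vale.Agent.P297.H637

section

variable {N : Type} [Field N] [Algebra ℂ N] [CharZero N] [IsAlgClosed N] {x y t : N}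

/-- **The discriminant**, over a field with a transcendental element. -/
theorem disc_aux' (m : Fin 10 → ℂ) (hfin : NoBase (zweb m)) (hsm : SmL (zweb m) N) {s : N}
    (hs : Transcendental ℂ s) : 4 * zp m ^ 3 ≠ zq m ^ 2 := by
  intro hdisc
  have hst : ∀ c : ℂ, s ≠ algebraMap ℂ N c := by
    rintro c rfl
    exact hs (isAlgebraic_algebraMap c)
  have hs0 : s ≠ 0 := by
    have := hst 0
    rwa [map_zero] at this
  have hs1 : s - 1 ≠ 0 := by
    have := hst 1
    rw [map_one] at this
    exact sub_ne_zero.2 this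
  have hs2 : s + 1 ≠ 0 := by
    have := hst (-1)
    rw [map_neg, map_one] at this
    intro h
    exact this (by linear_combination h)
  have hlt : Transcendental ℂ (lv s) := lv_tr hs
  obtain ⟨c, hc⟩ : ∃ c : Fin 5 → N, c = tq (dz (im N) (zm N m) (lv s)) (lv s) := ⟨_, rfl⟩
  have hci : ∀ i, c i = aeval (lv s) (zP m i) := fun i => by rw [hc, aeval_zP]
  have h4 : c 4 ≠ 0 := by
    rw [hci]
    intro h
    exact hlt ⟨_, zP_four m hfin, h⟩
  have hqI : qI c = aeval (lv s) (qI (zP m)) := by
    unfold qI
    simp only [map_add, map_sub, map_mul, map_pow, map_ofNat, hci]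
  have hqJ : qJ c = aeval (lv s) (qJ (zP m)) := by
    unfold qJ
    simp only [map_add, map_sub, map_mul, map_pow, map_ofNat, hci]
  have hd : 4 * qI c ^ 3 = qJ c ^ 2 := by
    rw [hqI, hqJ, qI_zP, qJ_zP]
    have h1 := congrArg (aeval (lv s)) hdisc
    simp only [map_mul, map_pow, map_ofNat] at h1 ⊢
    linear_combination ((aeval (lv s) (X : ℂ[X])) * (aeval (lv s) (X - 4 : ℂ[X]))) ^ 6 * h1
  obtain ⟨X₀, g₁, g₀, e3, e2, e1, e0⟩ := factor_any h4 hd
  have hroot : qv c X₀ = 0 := by
    unfold qv
    rw [e3, e2, e1, e0]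
    ring
  have hX₀ : (X₀ * (s - 1)) ^ 2 ≠ (s + 1) ^ 2 := by
    intro h
    apply qv_special_ne m hfin hs h
    rw [← hc]
    exact hroot
  obtain ⟨x, y, h, hS, hX⟩ := lift_of hs0 hs1 hs2 hX₀
  rw [← hS] at hc
  have key := fun t ht hb => A3_det h m (t := t) ht hb rfl hc e3 e2 e1 e0
  set k := (zS x y + 1) / (zS x y - 1) with hk
  set K := (4 * (x * y) * om x y * lv (zS x y) ^ 2) ^ 2 * 16 with hK
  have hK0 : K ≠ 0 := by
    rw [hK]
    exact mul_ne_zero (pow_ne_zero 2 (mul_ne_zero (mul_ne_zero (mul_ne_zero (by norm_num)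
      (mul_ne_zero h.x0 h.y0)) h.om_ne) (pow_ne_zero 2 (lv_ne' h)))) (by norm_num)
  set L : N[X] := C k * (C y - C (x * om x y) * X ^ 2) - C X₀ * (C y + C (x * om x y) * X ^ 2)
    with hL
  set G : N[X] := C (c 4) * ((C k * (C y - C (x * om x y) * X ^ 2)) ^ 2 +
    C g₁ * (C k * (C y - C (x * om x y) * X ^ 2)) * (C y + C (x * om x y) * X ^ 2) +
    C g₀ * (C y + C (x * om x y) * X ^ 2) ^ 2) with hG
  have hpoly : C K * (A3 (zweb m) x y).det = L ^ 2 * G := by
    have h1 : (C K * (A3 (zweb m) x y).det - L ^ 2 * G) *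
        (X * (C y + C (x * om x y) * X ^ 2)) = 0 := by
      apply Polynomial.funext
      intro t
      rw [eval_mul, eval_zero]
      by_cases ht : t = 0
      · rw [ht]
        simp
      by_cases hb : y + x * om x y * t ^ 2 = 0
      · have h2 : (X * (C y + C (x * om x y) * X ^ 2) : N[X]).eval t = 0 := by
          simp only [eval_mul, eval_add, eval_C, eval_X, eval_pow]
          rw [hb, mul_zero]
        rw [h2, mul_zero]
      · have h2 := key t ht hb
        rw [eval_sub, eval_mul, eval_C, h2]
        simp only [hL, hG, eval_mul, eval_sub, eval_add, eval_C, eval_X, eval_pow]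
        ring
    have h2 : (X * (C y + C (x * om x y) * X ^ 2) : N[X]) ≠ 0 := by
      apply mul_ne_zero X_ne_zero
      intro h3
      have h4 := congrArg (fun p => p.coeff 0) h3
      simp only [coeff_add, coeff_C_zero, coeff_C_mul, coeff_X_pow, coeff_zero] at h4
      simp at h4
      exact h.y0 h4
    have h3 := (mul_eq_zero.1 h1).resolve_right h2
    exact sub_eq_zero.1 h3
  have hL1 : L.eval 1 = 0 := by
    simp only [hL, eval_mul, eval_sub, eval_add, eval_C, eval_X, eval_pow, one_pow, mul_one]
    have h5 := h.den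
    have h6 : X₀ * (y + x * om x y) = k * (y - x * om x y) := by
      rw [← hX, zX, hk]
      field_simp
    linear_combination -h6
  have hd0 : (A3 (zweb m) x y).det.eval 1 = 0 := by
    have h5 := congrArg (fun p => p.eval 1) hpoly
    simp only [eval_mul, eval_C, eval_pow, hL1] at h5
    have h6 : K * (A3 (zweb m) x y).det.eval 1 = 0 := by rw [h5]; ring
    exact (mul_eq_zero.1 h6).resolve_left hK0
  have hd1 : (derivative (A3 (zweb m) x y).det).eval 1 = 0 := by
    have h5 := congrArg (fun p => (derivative p).eval 1) hpoly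
    rw [derivative_C_mul, eval_mul, eval_C, derivative_mul, derivative_pow] at h5
    have h6 : K * (derivative (A3 (zweb m) x y).det).eval 1 = 0 := by
      rw [h5]
      simp [hL1]
    exact (mul_eq_zero.1 h6).resolve_left hK0
  refine no_double_three' (zweb_symm m) hsm (fun o ho => ?_) h.x0 h.y0 ?_ hd0 hd1
  · by_contra hne
    exact qq_ne hfin hne ho
  · intro halg
    apply hs
    rw [← hS]
    unfold zS om
    rw [div_eq_mul_inv]
    have hI : IsAlgebraic ℂ (im N) := isAlgebraic_algebraMap _
    exact (((halg.add hI).mul ((isAlgebraic_one.add (hI.mul halg)).inv))).pow 2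

end

/-- **The discriminant of the twin does not vanish**, when the surface has isolated
singularities. -/
theorem hdisc_of_iso (m : Fin 10 → ℂ) (hfin : NoBase (zweb m)) (hsm : IsoX (zweb m)) :
    4 * zp m ^ 3 ≠ zq m ^ 2 := by
  let N := AlgebraicClosure (RatFunc ℂ)
  have : CharZero N := charZero_of_injective_algebraMap (algebraMap ℂ N).injective
  have hs : Transcendental ℂ (algebraMap (RatFunc ℂ) N RatFunc.X) := by
    have h1 : Transcendental ℂ (RatFunc.X : RatFunc ℂ) := RatFunc.transcendental_X
    exact (transcendental_algebraMap_iff (algebraMap (RatFunc ℂ) N).injective).2 h1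
  exact disc_aux' m hfin (N := N) hsm.smL hs

end Vale.Agent.P297.H55.T8

namespace Vale.Agent.P297.H10

open Vale.Agent.P297 Vale.Agent.P297.Gen Vale.Agent.P297.G4 Vale.Agent.P297.C8
open Vale.Agent.P297.H637 Vale.Agent.P297.Z3 Polynomial Matrix

section

variable {a : ℂ} {p q r : Fin 3 → ℂ}

/-- The family of quartics is nondegenerate if the intersection of the quadrics has isolated
singularities. -/
theorem hdisc_Q8_of_iso (hfin : NoBase (webQ a p q r)) (hs : IsoX (webQ a p q r)) :
    4 * (tI (fun i => C (dQ a p q r i)) X : ℂ[X]) ^ 3 ≠ tJ (fun i => C (dQ a p q r i)) X ^ 2 := by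
  intro hd
  let N := AlgebraicClosure (RatFunc ℂ)
  let x : N := algebraMap (RatFunc ℂ) N RatFunc.X
  have hx : Transcendental ℂ x := by
    have h1 : Transcendental ℂ (RatFunc.X : RatFunc ℂ) := RatFunc.transcendental_X
    intro h2
    apply h1
    exact (isAlgebraic_algebraMap_iff (algebraMap (RatFunc ℂ) N).injective).1 h2
  obtain ⟨y, hy, e1, e2⟩ := double_Q8 (N := N) hfin hd hx (P := (A1 (webQ a p q r) x).det) (by
    intro t ht
    have h1 : (evalRingHom t) (A1 (webQ a p q r) x).det =
      ((evalRingHom t).mapMatrix (A1 (webQ a p q r) x)).det := RingHom.map_det _ _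
    have h2 : (evalRingHom t).mapMatrix (A1 (webQ a p q r) x) = t • MM (webQ a p q r) x t := by
      ext i l
      rw [RingHom.mapMatrix_apply, Matrix.map_apply, coe_evalRingHom, A1_eval _ _ ht,
        Matrix.smul_apply, smul_eq_mul]
    rw [coe_evalRingHom] at h1
    rw [h1, h2, Matrix.det_smul]
    rfl)
  exact no_double_one' (webQ_symm a p q r) hs.smL
    (fun o ho => zero_of_noBase hfin ho) hx hy e1 e2

end

end Vale.Agent.P297.H10
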