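import Vale.Agent.P297.H55.Iso.Rk

/-!
Isolated singularities: the quadrics over the lines of the plane which are not complex have rank
at least three.
-/

set_option linter.unusedSectionVars false
set_option linter.style.haveILetI false
set_option linter.unusedSimpArgs false

open IntermediateField Polynomial

namespace Vale.Agent.P297.C8

open Vale.Agent.P297.H777 Vale.Agent.P297.H212.Camp Vale.Agent.P297.Z3

variable {N : Type} [Field N] [Algebra ℂ N] {Q : Web}

/-- **Rank three.** -/
theorem rank3_of_iso [IsAlgClosed N] (hQ : ∀ i, (Q i).IsSymm) (hiso : IsoX Q)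
    (m : Fin 3 → N) (hm : ∀ i, m i ≠ 0)
    (hmc : ¬ ∃ (c : N) (z : Fin 3 → ℂ), m = c • (fun j => algebraMap ℂ N (z j)))
    (l l' : Fin 4 → N)
    (h : ∀ a b, ∑ i, lm m i * algebraMap ℂ N (Q i a b) = l a * l' b + l' a * l b) : False := by
  classical
  haveI : CharZero N := charZero_of_injective_algebraMap (algebraMap ℂ N).injective
  -- the derivation
  obtain ⟨k, hk⟩ : ∃ k, ∀ c : ℂ, algebraMap ℂ N c ≠ m k / m 2 := by
    by_contra hne
    push Not at hne
    choose z hz using hne
    refine hmc ⟨m 2, z, funext fun j => ?_⟩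
    rw [Pi.smul_apply, hz, smul_eq_mul, mul_div_cancel₀ _ (hm 2)]
  obtain ⟨D, hDb, hD1⟩ := Gen.exists_derivation (⊥ : IntermediateField ℂ N) (w := m k / m 2)
    fun h1 => by
      obtain ⟨c, hc⟩ := complex_of_alg h1
      exact hk c hc
  have hDc : ∀ c : ℂ, D (algebraMap ℂ N c) = 0 := fun c => hDb _ (IntermediateField.algebraMap_mem _ c)
  have hind : LinearIndependent N ![lm m, fun i => D (lm m i)] := by
    refine der_lm_indep D hm ?_
    rintro ⟨h1, h2⟩
    have h3 : m 2 * D (m k) - m k * D (m 2) = 0 := by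
      fin_cases k
      · exact h1
      · exact h2
      · change m 2 * D (m 2) - m 2 * D (m 2) = 0
        ring
    have h4 : D (m k) = m k / m 2 * D (m 2) + m 2 * D (m k / m 2) := by
      have h5 : m k = m k / m 2 * m 2 := by rw [div_mul_cancel₀ _ (hm 2)]
      conv_lhs => rw [h5]
      rw [D.leibniz, smul_eq_mul, smul_eq_mul]
    rw [hD1, mul_one] at h4
    have h6 : m 2 * m 2 = 0 := by
      have h7 : m 2 * D (m k) = m k * D (m 2) + m 2 * m 2 := by
        rw [h4, mul_add, ← mul_assoc, mul_div_cancel₀ _ (hm 2)]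
      linear_combination h3 - h7
    exact hm 2 (mul_self_eq_zero.1 h6)
  -- the line
  obtain ⟨o₁, o₂, ho, h11, h12, h21, h22⟩ : ∃ o₁ o₂ : Fin 4 → N,
      LinearIndependent N ![o₁, o₂] ∧ ∑ a, l a * o₁ a = 0 ∧ ∑ a, l' a * o₁ a = 0 ∧
      ∑ a, l a * o₂ a = 0 ∧ ∑ a, l' a * o₂ a = 0 := by
    let A : Matrix (Fin 2) (Fin 4) N := Matrix.of ![l, l']
    have h1 : Module.finrank N (LinearMap.range A.mulVecLin) +
        Module.finrank N (LinearMap.ker A.mulVecLin) = 4 := by
      have := LinearMap.finrank_range_add_finrank_ker A.mulVecLin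
      simpa using this
    have h2 : Module.finrank N (LinearMap.range A.mulVecLin) ≤ 2 := by
      have := (LinearMap.range A.mulVecLin).finrank_le
      simpa using this
    have h3 : 2 ≤ Module.finrank N (LinearMap.ker A.mulVecLin) := by omega
    obtain ⟨f, hf⟩ := exists_linearIndependent_of_le_finrank h3
    have h4 : ∀ i, A.mulVec (f i) = 0 := fun i => (f i).2
    refine ⟨f 0, f 1, ?_, congrFun (h4 0) 0, congrFun (h4 0) 1, congrFun (h4 1) 0,
      congrFun (h4 1) 1⟩
    have h6 : LinearIndependent N (fun i => ((f i : LinearMap.ker A.mulVecLin) :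
        Fin 4 → N)) := hf.map' (LinearMap.ker A.mulVecLin).subtype (Submodule.ker_subtype _)
    convert h6 using 1
    funext i
    fin_cases i <;> rfl
  have hU : ∀ o : Fin 4 → N, ∑ a, l a * o a = 0 → ∑ a, l' a * o a = 0 → ∀ w : Fin 4 → N,
      ∑ i, lm m i * qb Q o w i = 0 := by
    intro o h1 h2 w
    have e1 : ∑ i, lm m i * qb Q o w i =
        ∑ a, ∑ b, (∑ i, lm m i * algebraMap ℂ N (Q i a b)) * (o a * w b) := by
      simp only [qb_apply, Finset.mul_sum, Finset.sum_mul]
      rw [Finset.sum_comm]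
      refine Finset.sum_congr rfl fun a _ => ?_
      rw [Finset.sum_comm]
      refine Finset.sum_congr rfl fun b _ => ?_
      refine Finset.sum_congr rfl fun i _ => ?_
      ring
    have e2 : ∑ a, ∑ b, (l a * l' b + l' a * l b) * (o a * w b) =
        (∑ a, l a * o a) * (∑ b, l' b * w b) + (∑ a, l' a * o a) * (∑ b, l b * w b) := by
      simp only [Fin.sum_univ_four]
      ring
    rw [e1]
    simp only [h]
    rw [e2, h1, h2]
    ring
  have hDQ : ∀ o : Fin 4 → N, ∑ a, l a * o a = 0 → ∑ a, l' a * o a = 0 →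
      ∑ i, D (lm m i) * qq Q o i = 0 := by
    intro o h1 h2
    have h3 : ∑ i, lm m i * qq Q o i = 0 := hU o h1 h2 o
    have h4 := congrArg D h3
    rw [map_sum, map_zero] at h4
    have h5 : ∀ i, D (lm m i * qq Q o i) =
        D (lm m i) * qq Q o i + 2 * (lm m i * qb Q o (fun j => D (o j)) i) := by
      intro i
      rw [D.leibniz, der_qq hQ D hDc, smul_eq_mul, smul_eq_mul]
      ring
    simp only [h5, Finset.sum_add_distrib, ← Finset.mul_sum] at h4
    rwa [hU o h1 h2 (fun j => D (o j)), mul_zero, add_zero] at h4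
  -- the vertex
  set v : Fin 3 → N := cr m (mop m) with hv
  have hEE : EE (lm m) v = 0 := EE_lm m
  have hv0 : v ≠ 0 := by
    intro h0
    have e0 : m 0 * (m 1 ^ 2 - m 2 ^ 2) = 0 := by
      have h1 := congrFun h0 0
      rw [hv, cr_zero] at h1
      simp only [mop, Matrix.cons_val_zero, Matrix.cons_val_one, Matrix.cons_val,
        Pi.zero_apply] at h1
      linear_combination h1
    have e1 : m 1 * (m 2 ^ 2 - m 0 ^ 2) = 0 := by
      have h1 := congrFun h0 1
      rw [hv, cr_one] at h1
      simp only [mop, Matrix.cons_val_zero, Matrix.cons_val_one, Matrix.cons_val,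
        Pi.zero_apply] at h1
      linear_combination h1
    have f0 := (mul_eq_zero.1 e0).resolve_left (hm 0)
    have f1 := (mul_eq_zero.1 e1).resolve_left (hm 1)
    have hsq : (m k / m 2) ^ 2 = 1 := by
      rw [div_pow, div_eq_one_iff_eq (pow_ne_zero 2 (hm 2))]
      fin_cases k
      · exact (sub_eq_zero.1 f1).symm
      · exact sub_eq_zero.1 f0
      · rfl
    rcases sq_eq_one_iff.1 hsq with h1 | h1
    · exact hk 1 (by rw [map_one, h1])
    · exact hk (-1) (by rw [map_neg, map_one, h1])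
  have hle : ∑ i, lm m i * ee v i = 0 := by
    rw [EE_self, hEE]
    simp
  have hDe : ∑ i, D (lm m i) * ee v i = 0 := by
    have h4 := congrArg D hle
    rw [map_sum, map_zero] at h4
    have h5 : ∀ i, D (lm m i * ee v i) =
        D (lm m i) * ee v i + 2 * (lm m i * eb v (fun j => D (v j)) i) := by
      intro i
      rw [D.leibniz, der_ee, smul_eq_mul, smul_eq_mul]
      ring
    simp only [h5, Finset.sum_add_distrib, ← Finset.mul_sum] at h4
    rw [EE_dot, hEE] at h4
    simpa using h4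
  have hev : ee v ≠ 0 := ee_ne_zero hv0
  obtain ⟨c, hc⟩ := exists_coord_ne hev
  -- the point
  obtain ⟨o, ho0, hol, hol', ρ, hρ⟩ : ∃ o : Fin 4 → N, o ≠ 0 ∧ ∑ a, l a * o a = 0 ∧
      ∑ a, l' a * o a = 0 ∧ ∃ ρ : N, qq Q o = ρ • ee v := by
    by_contra hcon
    push Not at hcon
    have ho₁ : o₁ ≠ 0 := by
      intro h0
      rw [LinearIndependent.pair_iff] at ho
      exact one_ne_zero (ho 1 0 (by rw [h0]; simp)).1
    obtain ⟨b, hb⟩ : ∃ b, ee v c * qq Q o₁ b - ee v b * qq Q o₁ c ≠ 0 := by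
      by_contra hne
      push Not at hne
      refine hcon o₁ ho₁ h11 h12 (qq Q o₁ c / ee v c) (funext fun b => ?_)
      have h1 := hne b
      rw [Pi.smul_apply, smul_eq_mul]
      field_simp
      linear_combination h1
    obtain ⟨s, t, hst, hz⟩ := exists_binary_zero (ee v c * qq Q o₁ b - ee v b * qq Q o₁ c)
      (ee v c * qb Q o₁ o₂ b - ee v b * qb Q o₁ o₂ c)
      (ee v c * qq Q o₂ b - ee v b * qq Q o₂ c)
    have hlin1 : ∑ a, l a * (s • o₁ + t • o₂) a = 0 := by
      have e : ∑ a, l a * (s • o₁ + t • o₂) a = s * ∑ a, l a * o₁ a + t * ∑ a, l a * o₂ a := by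
        simp only [Fin.sum_univ_four, Pi.add_apply, Pi.smul_apply, smul_eq_mul]
        ring
      rw [e, h11, h21]
      ring
    have hlin2 : ∑ a, l' a * (s • o₁ + t • o₂) a = 0 := by
      have e : ∑ a, l' a * (s • o₁ + t • o₂) a = s * ∑ a, l' a * o₁ a + t * ∑ a, l' a * o₂ a := by
        simp only [Fin.sum_univ_four, Pi.add_apply, Pi.smul_apply, smul_eq_mul]
        ring
      rw [e, h12, h22]
      ring
    have hne : s • o₁ + t • o₂ ≠ 0 := by
      intro h0
      rw [LinearIndependent.pair_iff] at ho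
      obtain ⟨h1, h2⟩ := ho s t h0
      rcases hst with h3 | h3
      · exact h3 h1
      · exact h3 h2
    have hzo : ee v c * qq Q (s • o₁ + t • o₂) b - ee v b * qq Q (s • o₁ + t • o₂) c = 0 := by
      have e : ∀ i, qq Q (s • o₁ + t • o₂) i = s ^ 2 * qq Q o₁ i + 2 * (s * t) * qb Q o₁ o₂ i +
          t ^ 2 * qq Q o₂ i := by
        intro i
        change qb Q (s • o₁ + t • o₂) (s • o₁ + t • o₂) i = _
        rw [qb_add_left, qb_add_right, qb_add_right]
        simp only [qb_smul_left, qb_smul_right, Pi.add_apply, Pi.smul_apply, smul_eq_mul]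
        rw [qb_comm hQ o₂ o₁]
        change _ = s ^ 2 * qb Q o₁ o₁ i + 2 * (s * t) * qb Q o₁ o₂ i + t ^ 2 * qb Q o₂ o₂ i
        ring
      rw [e, e]
      linear_combination hz
    have hdep := dep_of_ann hind (hU _ hlin1 hlin2 _) (hDQ _ hlin1 hlin2) hle hDe
      (hU o₁ h11 h12 o₁) (hDQ o₁ h11 h12)
    rw [Fintype.not_linearIndependent_iff] at hdep
    obtain ⟨g, hg, j, hj⟩ := hdep
    rw [Fin.sum_univ_three] at hg
    have hg' : ∀ i, g 0 * qq Q (s • o₁ + t • o₂) i + g 1 * ee v i + g 2 * qq Q o₁ i = 0 :=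
      fun i => congrFun hg i
    have hg2 : g 2 = 0 := by
      have h1 : g 2 * (ee v c * qq Q o₁ b - ee v b * qq Q o₁ c) = 0 := by
        linear_combination (ee v c) * hg' b - (ee v b) * hg' c - (g 0) * hzo
      exact (mul_eq_zero.1 h1).resolve_right hb
    have hg0 : g 0 ≠ 0 := by
      intro h0
      have h1 := hg' c
      rw [h0, hg2, zero_mul, zero_mul, zero_add, add_zero] at h1
      have h2 : g 1 = 0 := (mul_eq_zero.1 h1).resolve_right hc
      fin_cases j
      · exact hj h0
      · exact hj h2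
      · exact hj hg2
    refine hcon _ hne hlin1 hlin2 (-(g 1 / g 0)) (funext fun i => ?_)
    have h1 := hg' i
    rw [hg2, zero_mul, add_zero] at h1
    rw [Pi.smul_apply, smul_eq_mul]
    field_simp
    linear_combination h1
  obtain ⟨t, ht⟩ := IsAlgClosed.exists_pow_nat_eq ρ (n := 2) (by norm_num)
  have hl0 : lm m ≠ 0 := by
    intro h0
    have h1 := congrFun h0 0
    rw [lm_zero, Pi.zero_apply] at h1
    exact mul_ne_zero two_ne_zero (mul_ne_zero (mul_ne_zero (hm 0) (hm 1)) (hm 2)) h1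
  obtain ⟨s', t', o₀, v₀, l₀, -, ht', -, -, hl₀⟩ := hiso.ext (o := o) (v := t • v)
    (by rw [hρ, ee_smul, ht]) (Or.inl ho0) hl0
    (hU o hol hol') (by rw [EE_smul_right, hEE, smul_zero])
  rw [LinearIndependent.pair_iff] at hind
  have h1 := (hind (D t') (-t') (by
    funext i
    have h2 : lm m i = t' * algebraMap ℂ N (l₀ i) := by rw [hl₀]; rfl
    simp only [Pi.add_apply, Pi.smul_apply, smul_eq_mul, Pi.zero_apply]
    rw [h2, D.leibniz, hDc]
    simp only [smul_eq_mul]
    ring)).2
  exact ht' (neg_eq_zero.1 h1)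

end Vale.Agent.P297.C8
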