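import Vale.Agent.P297.H55.Iso.Cen
import Vale.Agent.P297.H55.Iso.R3

/-!
Bloch's conjecture for the quotients of the intersections of four quadrics `Q(o) = e(v)` with
isolated hypersurface singularities.
-/

set_option linter.unusedSectionVars false
set_option linter.style.haveILetI false

open IntermediateField Polynomial

namespace Vale.Agent.P297.H55.Nd

open Vale.Agent.P297 Vale.Agent.P297.Gen Vale.Agent.P297.Z3 Vale.Agent.P297.C8
open Vale.Agent.P297.H72 Vale.Agent.P297.H777 Vale.Agent.P297.H637 Vale.Agent.P297.H212.Camp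

section

variable {N : Type} [Field N] [Algebra ℂ N] {Q : Web}

theorem ind_of_not {u v : Fin 4 → N} (hu0 : u ≠ 0) (hc : ¬ ∃ c : N, v = c • u) :
    LinearIndependent N ![u, v] := by
  rw [LinearIndependent.pair_iff]
  intro s t hst
  by_cases ht : t = 0
  · rw [ht, zero_smul, add_zero] at hst
    exact ⟨(smul_eq_zero.1 hst).resolve_right hu0, ht⟩
  · exfalso
    apply hc
    refine ⟨-(t⁻¹ * s), ?_⟩
    have h1 : t⁻¹ • (s • u + t • v) = 0 := by rw [hst, smul_zero]
    rw [smul_add, smul_smul, smul_smul, inv_mul_cancel₀ ht, one_smul] at h1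
    rw [neg_smul]
    exact eq_neg_of_add_eq_zero_right h1

theorem int_of (hfin : NoBase Q) (E : IntermediateField ℂ N) (hE : Closed E) (p : Fin 4 → N)
    (hp : ∀ i, qq Q p i ∈ E) (j : Fin 4) : p j ∈ E := by
  refine hE _ ?_
  have h1 := web_integral hfin p j
  have hle : ∀ z : Algebra.adjoin ℂ (Set.range (qq Q p)), (z : N) ∈ E := by
    intro z
    have h2 : Algebra.adjoin ℂ (Set.range (qq Q p)) ≤ E.toSubalgebra := by
      rw [Algebra.adjoin_le_iff]
      rintro _ ⟨i, rfl⟩
      exact hp i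
    exact h2 z.2
  let φ : Algebra.adjoin ℂ (Set.range (qq Q p)) →+* E :=
    (Algebra.adjoin ℂ (Set.range (qq Q p))).val.toRingHom.codRestrict E hle
  exact (IsIntegral.map_of_comp_eq φ (RingHom.id N) rfl h1).isAlgebraic

theorem webI_of_iso [IsAlgClosed N] (hQ : ∀ i, (Q i).IsSymm) (hfin : NoBase Q)
    (hirr : Irreducible (octic Q)) (hiso : IsoX Q) : WebI Q N where
  symm := hQ
  zero := fun p hp => zero_of_noBase hfin hp
  int := int_of hfin
  rk := by
    intro p u v hst hp hu hv hu0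
    by_cases hc : ∃ c : N, v = c • u
    · exact Or.inl hc
    · exact Or.inr (complex_of_ker hQ hfin hiso hst hp hu hv (ind_of_not hu0 hc))
  jac := fun p u hp hu => hp.qb_eq_zero hQ hfin hirr hu

theorem webN_of_iso [IsAlgClosed N] (hQ : ∀ i, (Q i).IsSymm) (hfin : NoBase Q)
    (hirr : Irreducible (octic Q)) (hiso : IsoX Q)
    (hno : ∀ x : Fin 4 → ℂ, x ≠ 0 → st (qq Q x) = 0 →
      ∃ l : Fin 4 → ℂ, ∑ i, l i * qq Q x i = 0 ∧ ∃ w : Fin 4 → ℂ, ∑ i, l i * qb Q x w i ≠ 0) :
    WebN Q N where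
  symm := hQ
  zero := fun p hp => zero_of_noBase hfin hp
  int := int_of hfin
  rk := by
    intro p u v hst hp hu hv hu0
    by_cases hc : ∃ c : N, v = c • u
    · exact Or.inl hc
    · right
      obtain ⟨c, y, h1, h2⟩ := complex_of_ker hQ hfin hiso hst hp hu hv (ind_of_not hu0 hc)
      obtain ⟨l, h3, h4⟩ := hno y (by
        rintro rfl
        apply hp
        rw [h2]
        funext i
        simp) (by
        have h3 := hst
        rw [h2, qq_smul, st_smul] at h3
        have h4 := (mul_eq_zero.1 h3).resolve_left (pow_ne_zero _ (pow_ne_zero _ h1))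
        have h5 := map_st_qq Q (Algebra.ofId ℂ N) y
        have h6 : (fun j => (Algebra.ofId ℂ N) (y j)) = (fun j => algebraMap ℂ N (y j)) := rfl
        rw [h6, h4] at h5
        exact (map_eq_zero_iff _ (algebraMap ℂ N).injective).1 h5)
      exact ⟨c, y, l, h1, h2, h3, h4⟩
  jac := fun p u hp hu => hp.qb_eq_zero hQ hfin hirr hu

/-- A point whose polar forms are proportional is a centre. -/
theorem exists_cen (hfin : NoBase Q) {x : Fin 4 → ℂ} (hx : x ≠ 0)
    (h : ∀ l : Fin 4 → ℂ, ∑ i, l i * qq Q x i = 0 → ∀ w : Fin 4 → ℂ,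
      ∑ i, l i * qb Q x w i = 0) : ∃ L, Cen Q x L := by
  have h1 : qq Q x ≠ 0 := fun h2 => hx (hfin x h2)
  obtain ⟨k, hk⟩ := exists_coord_ne h1
  have h2 : ∀ w i, qq Q x k * qb Q x w i = qq Q x i * qb Q x w k := by
    intro w i
    have h3 : ∀ y : Fin 4 → ℂ, ∑ j, ((Pi.single i (qq Q x k) : Fin 4 → ℂ) j -
        (Pi.single k (qq Q x i) : Fin 4 → ℂ) j) * y j = qq Q x k * y i - qq Q x i * y k := by
      intro y
      simp only [sub_mul, Finset.sum_sub_distrib, Pi.single_apply, ite_mul, zero_mul,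
        Finset.sum_ite_eq', Finset.mem_univ, if_true]
    have h4 := h (fun j => (Pi.single i (qq Q x k) : Fin 4 → ℂ) j -
        (Pi.single k (qq Q x i) : Fin 4 → ℂ) j) (by rw [h3]; ring) w
    rw [h3] at h4
    exact sub_eq_zero.1 h4
  have h5 : ∀ w : Fin 4 → ℂ, qb Q x w k = ∑ a, qb Q x (Pi.single a 1) k * w a := by
    intro w
    have h6 : ∀ a, qb Q x (Pi.single a 1) k = ∑ b, Q k b a * x b := by
      intro a
      rw [qb_apply]
      refine Finset.sum_congr rfl fun b _ => ?_
      rw [Finset.sum_eq_single a]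
      · rw [Pi.single_eq_same, mul_one]
        rfl
      · intro c _ hc
        rw [Pi.single_eq_of_ne hc, mul_zero, mul_zero]
      · intro hb
        exact absurd (Finset.mem_univ _) hb
    simp only [h6]
    rw [qb_apply, Finset.sum_comm]
    refine Finset.sum_congr rfl fun a _ => ?_
    rw [Finset.sum_mul]
    refine Finset.sum_congr rfl fun b _ => ?_
    change Q k b a * (x b * w a) = Q k b a * x b * w a
    ring
  refine ⟨fun a => qb Q x (Pi.single a 1) k / qq Q x k, hx, fun w => ?_⟩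
  funext i
  have h6 : ∑ a, qb Q x (Pi.single a 1) k / qq Q x k * w a = qb Q x w k / qq Q x k := by
    rw [h5 w, Finset.sum_div]
    exact Finset.sum_congr rfl fun a _ => by ring
  rw [h6, Pi.smul_apply, smul_eq_mul, div_mul_eq_mul_div, eq_div_iff hk]
  linear_combination h2 w i

end

section bloch

variable {K K' N : Type} [Field K] [Algebra ℂ K] [Field K'] [Algebra ℂ K'] [Field N]
  [Algebra ℂ N] [IsAlgClosed N] {Q : Web} {x : Fin 4 → K} {κ : K' →ₐ[ℂ] K} {mm n : ℤ}

/-- **Linking**, for pairs which are not special. -/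
theorem link_iso (hx : C8.IsFF Q x) (hQ : ∀ i, (Q i).IsSymm) (hfin : NoBase Q)
    (hirr : Irreducible (octic Q))
    (hdet : ∀ (N : Type) [Field N] [Algebra ℂ N] (a b : N), AlgebraicIndependent ℂ ![a, b] →
      (MM Q a b).det ≠ 0) (hD : DHyp Q x κ mm n) (hiso : IsoX Q) {o o' : Fin 4 → N}
    (h : PairN Q o o') : (2 * n) • resK κ (C8.pt x o + C8.pt x o') ∈ Rel mm K' N := by
  have h1 := PairN.link hx hfin hirr hdet hD (webI_of_iso hQ hfin hirr hiso)
    (fun m hm hmc => rank3_of_iso hQ hiso m hm fun ⟨c, z, hz⟩ => hmc c z hz) h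
  have h2 : resK κ ((2 * n) • (C8.pt x o + C8.pt x o')) ∈ Rel mm K' N := h1
  rw [map_zsmul] at h2
  exact h2

/-- **Bloch's conjecture** for the quotients of the surface `Q(o) = e(v)` with isolated
hypersurface singularities. -/
theorem bloch_iso (hx : C8.IsFF Q x) (hQ : ∀ i, (Q i).IsSymm) (hfin : NoBase Q)
    (hirr : Irreducible (octic Q)) (hsp : ∃ a : Fin 4 → ℂ, Three Q a)
    (hdet : ∀ (N : Type) [Field N] [Algebra ℂ N] (a b : N), AlgebraicIndependent ℂ ![a, b] →
      (MM Q a b).det ≠ 0) (hn : n ≠ 0) (hD : DHyp Q x κ 0 n) (hiso : IsoX Q)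
    (hcen : ∀ y L, Cen Q y L → ∃ C L : Fin 4 → Fin 4 → ℂ, Four Q C L)
    (φ : K →ₐ[ℂ] N) : H839.PointsEquivalent K' := by
  by_cases hno : ∀ y : Fin 4 → ℂ, y ≠ 0 → st (qq Q y) = 0 →
      ∃ l : Fin 4 → ℂ, ∑ i, l i * qq Q y i = 0 ∧ ∃ w : Fin 4 → ℂ, ∑ i, l i * qb Q y w i ≠ 0
  · exact camp_glue hQ hfin hirr hsp hx κ φ (mul_ne_zero two_ne_zero hn)
      (link_of_webN hx hfin hirr hdet hD (webN_of_iso hQ hfin hirr hiso hno)
        (fun m hm hmc => rank3_of_iso hQ hiso m hm fun ⟨c, z, hz⟩ => hmc c z hz))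
  · push Not at hno
    obtain ⟨y, hy, -, hl⟩ := hno
    obtain ⟨L₀, hL₀⟩ := exists_cen hfin hy hl
    obtain ⟨C, L, hF⟩ := hcen y L₀ hL₀
    let o : Fin 4 → N := fun j => φ (x j)
    have ho : GenW Q o := GenW.of_phi hx φ
    have p1 := hF.pair hQ hfin hx (i := 0) (j := 1) (k := 2) (l := 3) (by decide) (by decide)
      (by decide) (by decide) (by decide) (by decide) ho
    have p2 := hF.pair hQ hfin hx (i := 0) (j := 2) (k := 1) (l := 3) (by decide) (by decide)
      (by decide) (by decide) (by decide) (by decide) ho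
    have hg := p1.gen' (webI_of_iso hQ hfin hirr hiso) hx
    have p3 := hF.pair hQ hfin hx (i := 1) (j := 2) (k := 0) (l := 3) (by decide) (by decide)
      (by decide) (by decide) (by decide) (by decide) hg
    rw [hF.pair_comp hQ hfin (i := 0) (j := 1) (k := 2) (by decide) (by decide)
      (by decide) o] at p3
    set a := rr (C 0) (L 0) (C 1) (L 1) o with ha
    set b := rr (C 0) (L 0) (C 2) (L 2) o with hb
    have e1 := link_iso (κ := κ) hx hQ hfin hirr hdet hD hiso p1
    have e2 := link_iso (κ := κ) hx hQ hfin hirr hdet hD hiso p2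
    have e3 := link_iso (κ := κ) hx hQ hfin hirr hdet hD hiso p3
    have e4 := (Rel 0 K' N).sub_mem ((Rel 0 K' N).add_mem e1 e2) e3
    have e5 : (2 * n) • resK κ (C8.pt x o + C8.pt x a) + (2 * n) • resK κ (C8.pt x o + C8.pt x b) -
        (2 * n) • resK κ (C8.pt x a + C8.pt x b) = (2 * n * 2) • resK κ (C8.pt x o) := by
      simp only [map_add, smul_add, mul_smul, two_smul]
      abel
    rw [e5, pt_phi hx, resK_single] at e4
    have e6 : (2 * n * 2) • (Finsupp.single (φ.comp κ) (1 : ℤ) : (K' →ₐ[ℂ] N) →₀ ℤ) =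
        Finsupp.single (φ.comp κ) (2 * n * 2) := by
      rw [Finsupp.smul_single, smul_eq_mul, mul_one]
    rw [e6] at e4
    exact pointsEquivalent_of_rel (φ.comp κ)
      (mul_ne_zero (mul_ne_zero two_ne_zero hn) two_ne_zero) e4

end bloch

end Vale.Agent.P297.H55.Nd
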