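import Vale.Agent.P297.H55.Iso.Glue
import Vale.Agent.P297.H55.Iso.Disc
import Vale.Agent.P297.H55.Z8Aut
import Vale.Agent.P297.H10.Q8Aut

/-!
Bloch's conjecture for the quotients by the groups `ℤ/8` and `Q₈` of the intersections of four
quadrics with isolated hypersurface singularities.
-/

set_option linter.unusedSectionVars false
set_option linter.style.haveILetI false
set_option linter.unusedSimpArgs false

open IntermediateField Polynomial

namespace Vale.Agent.P297.H55.Nd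

open Vale.Agent.P297 Vale.Agent.P297.Gen Vale.Agent.P297.Z3 Vale.Agent.P297.C8
open Vale.Agent.P297.H72 Vale.Agent.P297.H777 Vale.Agent.P297.H637 Vale.Agent.P297.H212.Camp
open Vale.Agent.P297.H55.T8 Vale.Agent.P297.H839

/-- The image of a centre under a symmetry of the web is a centre. -/
theorem Cen.map {Q : Web} (hfin : NoBase Q) {y L : Fin 4 → ℂ} (h : Cen Q y L)
    (T D : (Fin 4 → ℂ) → Fin 4 → ℂ) (hD : ∀ (c : ℂ) z, D (c • z) = c • D z)
    (hT : ∀ w, ∃ w', T w' = w) (hq : ∀ u w, qb Q (T u) (T w) = D (qb Q u w)) (h0 : T y ≠ 0) :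
    ∃ L', Cen Q (T y) L' := by
  refine exists_cen hfin h0 fun l hl w => ?_
  obtain ⟨w', rfl⟩ := hT w
  rw [hq, h.form, hD]
  have h1 : qq Q (T y) = D (qq Q y) := hq y y
  rw [h1] at hl
  have h2 : ∑ i, l i * ((∑ a, L a * w' a) • D (qq Q y)) i =
      (∑ a, L a * w' a) * ∑ i, l i * D (qq Q y) i := by
    rw [Finset.mul_sum]
    refine Finset.sum_congr rfl fun i _ => ?_
    rw [Pi.smul_apply, smul_eq_mul]
    ring
  rw [h2, hl, mul_zero]

section z8

variable {m : Fin 10 → ℂ}

theorem z8_ne (hfin : NoBase (zweb m)) {y L : Fin 4 → ℂ} (h : Cen (zweb m) y L) :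
    (y 0 ≠ 0 ∨ y 1 ≠ 0) ∧ (y 2 ≠ 0 ∨ y 3 ≠ 0) := by
  have hc := c_ne m hfin
  obtain ⟨hb4, hb9⟩ := b_ne m hfin
  have hform : ∀ w : Fin 4 → ℂ, ∃ s : ℂ,
      (m 0 / 2 * (y 0 * w 3 + y 3 * w 0) + m 1 / 2 * (y 1 * w 2 + y 2 * w 1) =
        s * (m 0 * (y 0 * y 3) + m 1 * (y 1 * y 2))) ∧
      (m 5 / 2 * (y 0 * w 2 + y 2 * w 0) + m 6 / 2 * (y 1 * w 3 + y 3 * w 1) =
        s * (m 5 * (y 0 * y 2) + m 6 * (y 1 * y 3))) ∧
      (m 2 * (y 0 * w 0) + m 3 * (y 1 * w 1) + m 4 / 2 * (y 2 * w 3 + y 3 * w 2) =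
        s * (m 2 * y 0 ^ 2 + m 3 * y 1 ^ 2 + m 4 * (y 2 * y 3))) ∧
      (m 7 * (y 2 * w 2) + m 8 * (y 3 * w 3) + m 9 / 2 * (y 0 * w 1 + y 1 * w 0) =
        s * (m 7 * y 2 ^ 2 + m 8 * y 3 ^ 2 + m 9 * (y 0 * y 1))) := by
    intro w
    have hI := Complex.I_mul_I
    have h0 := h.form w
    rw [qb_zweb, qq_zweb] at h0
    refine ⟨∑ a, L a * w a, ?_, ?_, ?_, ?_⟩
    · exact congrFun h0 0
    · exact congrFun h0 3
    · have h1 := congrFun h0 1
      have h2 := congrFun h0 2
      simp only [Pi.smul_apply, smul_eq_mul, Matrix.cons_val] at h1 h2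
      have hz : zm ℂ m = m := rfl
      have hj : im ℂ = Complex.I := rfl
      rw [hz] at h1 h2
      rw [hj] at h2
      linear_combination (1 / 2 : ℂ) * h1 - (Complex.I / 2) * h2 +
        (1 / 2 : ℂ) * ((m 2 * (y 0 * w 0) + m 3 * (y 1 * w 1) +
          m 4 / 2 * (y 2 * w 3 + y 3 * w 2)) - (m 7 * (y 2 * w 2) + m 8 * (y 3 * w 3) +
          m 9 / 2 * (y 0 * w 1 + y 1 * w 0)) - (∑ a, L a * w a) * ((m 2 * y 0 ^ 2 +
          m 3 * y 1 ^ 2 + m 4 * (y 2 * y 3)) - (m 7 * y 2 ^ 2 + m 8 * y 3 ^ 2 +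
          m 9 * (y 0 * y 1)))) * hI
    · have h1 := congrFun h0 1
      have h2 := congrFun h0 2
      simp only [Pi.smul_apply, smul_eq_mul, Matrix.cons_val] at h1 h2
      have hz : zm ℂ m = m := rfl
      have hj : im ℂ = Complex.I := rfl
      rw [hz] at h1 h2
      rw [hj] at h2
      linear_combination (1 / 2 : ℂ) * h1 + (Complex.I / 2) * h2 -
        (1 / 2 : ℂ) * ((m 2 * (y 0 * w 0) + m 3 * (y 1 * w 1) +
          m 4 / 2 * (y 2 * w 3 + y 3 * w 2)) - (m 7 * (y 2 * w 2) + m 8 * (y 3 * w 3) +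
          m 9 / 2 * (y 0 * w 1 + y 1 * w 0)) - (∑ a, L a * w a) * ((m 2 * y 0 ^ 2 +
          m 3 * y 1 ^ 2 + m 4 * (y 2 * y 3)) - (m 7 * y 2 ^ 2 + m 8 * y 3 ^ 2 +
          m 9 * (y 0 * y 1)))) * hI
  have hne := h.ne
  constructor
  · by_contra hcon
    push Not at hcon
    obtain ⟨y0, y1⟩ := hcon
    by_cases y2 : y 2 = 0
    · by_cases y3 : y 3 = 0
      · apply hne
        funext i
        fin_cases i
        · exact y0
        · exact y1
        · exact y2
        · exact y3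
      · obtain ⟨s, -, -, h3, -⟩ := hform ![0, 0, 1, 0]
        simp only [Matrix.cons_val, y0, y1, y2] at h3
        apply mul_ne_zero hb4 y3
        linear_combination 2 * h3
    · by_cases y3 : y 3 = 0
      · obtain ⟨s, -, -, h3, -⟩ := hform ![0, 0, 0, 1]
        simp only [Matrix.cons_val, y0, y1, y3] at h3
        apply mul_ne_zero hb4 y2
        linear_combination 2 * h3
      · apply hc
        obtain ⟨s, -, h3, -, -⟩ := hform ![1, 0, 0, 0]
        obtain ⟨s', -, h4, -, -⟩ := hform ![0, 1, 0, 0]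
        simp only [Matrix.cons_val, y0, y1] at h3 h4
        constructor
        · apply (mul_eq_zero.1 _).resolve_right y2
          linear_combination 2 * h3
        · apply (mul_eq_zero.1 _).resolve_right y3
          linear_combination 2 * h4
  · by_contra hcon
    push Not at hcon
    obtain ⟨y2, y3⟩ := hcon
    by_cases y0 : y 0 = 0
    · by_cases y1 : y 1 = 0
      · apply hne
        funext i
        fin_cases i
        · exact y0
        · exact y1
        · exact y2
        · exact y3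
      · obtain ⟨s, -, -, -, h3⟩ := hform ![1, 0, 0, 0]
        simp only [Matrix.cons_val, y0, y2, y3] at h3
        apply mul_ne_zero hb9 y1
        linear_combination 2 * h3
    · by_cases y1 : y 1 = 0
      · obtain ⟨s, -, -, -, h3⟩ := hform ![0, 1, 0, 0]
        simp only [Matrix.cons_val, y1, y2, y3] at h3
        apply mul_ne_zero hb9 y0
        linear_combination 2 * h3
      · apply hc
        obtain ⟨s, -, h3, -, -⟩ := hform ![0, 0, 1, 0]
        obtain ⟨s', -, h4, -, -⟩ := hform ![0, 0, 0, 1]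
        simp only [Matrix.cons_val, y2, y3] at h3 h4
        constructor
        · apply (mul_eq_zero.1 _).resolve_right y0
          linear_combination 2 * h3
        · apply (mul_eq_zero.1 _).resolve_right y1
          linear_combination 2 * h4

/-- the orbit of the centre -/
noncomputable def zC (y : Fin 4 → ℂ) (n : ℕ) : Fin 4 → ℂ := fun a => zl a ^ n * y a

theorem zC_succ (y : Fin 4 → ℂ) (n : ℕ) : zC y (n + 1) = zA (zC y n) := by
  funext a
  rw [zA_apply]
  change zl a ^ (n + 1) * y a = zl a * (zl a ^ n * y a)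
  ring

theorem zC_cen (hfin : NoBase (zweb m)) {y L : Fin 4 → ℂ} (h : Cen (zweb m) y L) (n : ℕ) :
    ∃ L', Cen (zweb m) (zC y n) L' := by
  induction n with
  | zero =>
    refine ⟨L, ?_⟩
    have h1 : zC y 0 = y := by
      funext a
      change zl a ^ 0 * y a = y a
      rw [pow_zero, one_mul]
    rw [h1]
    exact h
  | succ n ih =>
    obtain ⟨L', hL'⟩ := ih
    rw [zC_succ]
    refine hL'.map hfin (fun w => zA w) (fun z => ![-(im ℂ * z 0), -(im ℂ * z 2),
      im ℂ * z 1, im ℂ * z 3]) ?_ ?_ ?_ ?_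
    · intro c z
      funext i
      fin_cases i <;> simp <;> ring
    · intro w
      refine ⟨fun a => (zl a)⁻¹ * w a, ?_⟩
      funext a
      rw [zA_apply]
      change zl a * ((zl a)⁻¹ * w a) = w a
      rw [mul_inv_cancel_left₀ (zl_ne a)]
    · intro u w
      exact qb_zA m u w
    · intro h0
      apply hL'.ne
      funext a
      have h1 := congrFun h0 a
      simp only [zA_apply] at h1
      exact (mul_eq_zero.1 h1).resolve_left (zl_ne a)

theorem pow_aux {p q : ℂ} (hp : p ^ 2 = 1) (hq : q ^ 2 = -1) (i j : Fin 4) (hij : i ≠ j) :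
    p ^ (i : ℕ) * q ^ (j : ℕ) - p ^ (j : ℕ) * q ^ (i : ℕ) ≠ 0 := by
  have hp0 : p ≠ 0 := by
    rintro rfl
    norm_num at hp
  have hq0 : q ≠ 0 := by
    rintro rfl
    norm_num at hq
  have hpq : p * q ≠ 0 := mul_ne_zero hp0 hq0
  have h1 : q - p ≠ 0 := by
    intro h
    apply hpq
    linear_combination (-1 / 2 : ℂ) * (q - p) * h + (1 / 2 : ℂ) * hp + (1 / 2 : ℂ) * hq
  have h2 : q + p ≠ 0 := by
    intro h
    apply hpq
    linear_combination (1 / 2 : ℂ) * (q + p) * h - (1 / 2 : ℂ) * hp - (1 / 2 : ℂ) * hq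
  fin_cases i <;> fin_cases j <;> first | exact absurd rfl hij | skip
  all_goals
    simp only [Fin.val_zero, Fin.val_one, Fin.val_two, Fin.zero_eta, Fin.mk_one, Fin.reduceFinMk,
      pow_zero, pow_one, one_mul, mul_one]
    intro h
  · exact h1 h
  · have h3 : (2 : ℂ) = 0 := by linear_combination -h + hq - hp
    exact two_ne_zero h3
  · apply h2
    change q ^ 3 - p ^ 3 = 0 at h
    linear_combination -h + q * hq - p * hp
  · apply h1
    linear_combination -h
  · apply h2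
    linear_combination -h + p * hq - q * hp
  · apply hpq
    change p * q ^ 3 - p ^ 3 * q = 0 at h
    linear_combination (-1 / 2 : ℂ) * h + (1 / 2 : ℂ) * p * q * hq - (1 / 2 : ℂ) * p * q * hp
  · have h3 : (2 : ℂ) = 0 := by linear_combination h + hq - hp
    exact two_ne_zero h3
  · apply h2
    linear_combination h + p * hq - q * hp
  · apply h1
    change p ^ 2 * q ^ 3 - p ^ 3 * q ^ 2 = 0 at h
    linear_combination -h + p ^ 2 * (q - p) * hq - (q - p) * hp
  · apply h2
    change p ^ 3 - q ^ 3 = 0 at h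
    linear_combination h + q * hq - p * hp
  · apply hpq
    change p ^ 3 * q - p * q ^ 3 = 0 at h
    linear_combination (1 / 2 : ℂ) * h + (1 / 2 : ℂ) * p * q * hq - (1 / 2 : ℂ) * p * q * hp
  · apply h1
    change p ^ 3 * q ^ 2 - p ^ 2 * q ^ 3 = 0 at h
    linear_combination h + p ^ 2 * (q - p) * hq - (q - p) * hp

theorem z8_four (hfin : NoBase (zweb m)) (y L : Fin 4 → ℂ) (h : Cen (zweb m) y L) :
    ∃ C L : Fin 4 → Fin 4 → ℂ, Four (zweb m) C L := by
  choose L' hL' using fun n : ℕ => zC_cen hfin h n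
  refine ⟨fun i => zC y i, fun i => L' i, fun i => hL' i, fun i j hij => ?_⟩
  rw [LinearIndependent.pair_iff]
  intro s t hst
  obtain ⟨ha, hb⟩ := z8_ne hfin h
  obtain ⟨a, ha, hza⟩ : ∃ a, y a ≠ 0 ∧ zl a ^ 2 = 1 := by
    rcases ha with ha | ha
    · exact ⟨0, ha, by change (1 : ℂ) ^ 2 = 1; norm_num⟩
    · exact ⟨1, ha, by change (-1 : ℂ) ^ 2 = 1; norm_num⟩
  obtain ⟨b, hb, hzb⟩ : ∃ b, y b ≠ 0 ∧ zl b ^ 2 = -1 := by
    rcases hb with hb | hb
    · exact ⟨2, hb, by change Complex.I ^ 2 = -1; exact Complex.I_sq⟩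
    · exact ⟨3, hb, by change (-Complex.I) ^ 2 = -1; rw [neg_sq]; exact Complex.I_sq⟩
  have e1 : s * zl a ^ (i : ℕ) + t * zl a ^ (j : ℕ) = 0 := by
    have h1 : s * (zl a ^ (i : ℕ) * y a) + t * (zl a ^ (j : ℕ) * y a) = 0 := congrFun hst a
    apply (mul_eq_zero.1 _).resolve_right ha
    linear_combination h1
  have e2 : s * zl b ^ (i : ℕ) + t * zl b ^ (j : ℕ) = 0 := by
    have h1 : s * (zl b ^ (i : ℕ) * y b) + t * (zl b ^ (j : ℕ) * y b) = 0 := congrFun hst b
    apply (mul_eq_zero.1 _).resolve_right hb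
    linear_combination h1
  have h3 := pow_aux hza hzb i j hij
  constructor
  · apply (mul_eq_zero.1 _).resolve_right h3
    linear_combination zl b ^ (j : ℕ) * e1 - zl a ^ (j : ℕ) * e2
  · apply (mul_eq_zero.1 _).resolve_right h3
    linear_combination zl a ^ (i : ℕ) * e2 - zl b ^ (i : ℕ) * e1

end z8

end Vale.Agent.P297.H55.Nd
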