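import Vale.Agent.P297.H55.Iso.Def

/-!
Isolated singularities: ranks of the quadrics of the web.
-/

set_option linter.unusedSectionVars false
set_option linter.style.haveILetI false
set_option linter.unusedSimpArgs false

open IntermediateField Polynomial

namespace Vale.Agent.P297.C8

open Vale.Agent.P297.H777 Vale.Agent.P297.H212.Camp Vale.Agent.P297.Z3

variable {N : Type} [Field N] [Algebra ℂ N] {Q : Web}

/-- Either the vector is complex up to a scalar, or it moves. -/
theorem complex_or_der [IsAlgClosed N] {n : ℕ} (v : Fin n → N) (hv : v ≠ 0) :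
    (∃ (c : N) (z : Fin n → ℂ), c ≠ 0 ∧ v = c • (fun j => algebraMap ℂ N (z j))) ∨
      ∃ (D : Derivation ℤ N N) (i j : Fin n), (∀ c : ℂ, D (algebraMap ℂ N c) = 0) ∧
        v i * D (v j) - v j * D (v i) ≠ 0 := by
  obtain ⟨i, hi⟩ := exists_coord_ne hv
  by_cases hall : ∀ j, ∃ c : ℂ, algebraMap ℂ N c = v j / v i
  · left
    choose z hz using hall
    refine ⟨v i, z, hi, funext fun j => ?_⟩
    rw [Pi.smul_apply, hz, smul_eq_mul, mul_div_cancel₀ _ hi]
  · right
    push Not at hall
    obtain ⟨j, hj⟩ := hall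
    obtain ⟨D, hDb, hD1⟩ := Gen.exists_derivation (⊥ : IntermediateField ℂ N) (w := v j / v i)
      fun h1 => by
        obtain ⟨c, hc⟩ := complex_of_alg h1
        exact hj c hc
    refine ⟨D, i, j, fun c => hDb _ (IntermediateField.algebraMap_mem _ c), ?_⟩
    have h4 : D (v j) = v j / v i * D (v i) + v i * D (v j / v i) := by
      have h5 : v j = v j / v i * v i := by rw [div_mul_cancel₀ _ hi]
      conv_lhs => rw [h5]
      rw [D.leibniz, smul_eq_mul, smul_eq_mul]
    rw [hD1, mul_one] at h4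
    rw [h4]
    have h6 : v i * (v j / v i * D (v i) + v i) - v j * D (v i) = v i ^ 2 := by
      field_simp
      ring
    rw [h6]
    exact pow_ne_zero 2 hi

/-- A vector with complex values is a complex vector up to a scalar. -/
theorem complex_of_qq (hfin : NoBase Q) {p : Fin 4 → N} {c : N} (hc : c ≠ 0) {y : Fin 4 → ℂ}
    (h : qq Q p = c ^ 2 • (fun j => algebraMap ℂ N (y j))) :
    ∃ x : Fin 4 → ℂ, p = c • (fun j => algebraMap ℂ N (x j)) := by
  have hall : ∀ i, ∃ z : ℂ, algebraMap ℂ N z = (c⁻¹ • p) i := fun i =>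
    complex_of_val _ fun V hV => by
      refine fin_of_val hfin V hV (c⁻¹ • p) (fun k => ?_) i
      rw [qq_smul, h, smul_smul, ← mul_pow, inv_mul_cancel₀ hc, one_pow, one_smul]
      exact hV _
  choose x hx using hall
  refine ⟨x, funext fun i => ?_⟩
  rw [Pi.smul_apply, hx, Pi.smul_apply, smul_eq_mul, smul_eq_mul, mul_inv_cancel_left₀ hc]

/-- **Rank two.** A point of the octic where the quadrics of the web have a pencil of singular
members is a complex point. -/
theorem complex_of_ker [IsAlgClosed N] (hQ : ∀ i, (Q i).IsSymm) (hfin : NoBase Q)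
    (h : IsoX Q) {p u u' : Fin 4 → N} (hst : st (qq Q p) = 0) (hp : p ≠ 0)
    (hu : qb Q p u = 0) (hu' : qb Q p u' = 0) (hind : LinearIndependent N ![u, u']) :
    ∃ (c : N) (x : Fin 4 → ℂ), c ≠ 0 ∧ p = c • (fun j => algebraMap ℂ N (x j)) := by
  haveI : CharZero N := charZero_of_injective_algebraMap (algebraMap ℂ N).injective
  obtain ⟨v, hv⟩ := exists_ee_all hst
  have hv0 : v ≠ 0 := by
    rintro rfl
    refine hp (zero_of_noBase hfin ?_)
    rw [← hv]
    funext i
    fin_cases i <;> simp [ee, eb]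
  rcases complex_or_der v hv0 with ⟨c, z, hc, hz⟩ | ⟨D, i, j, hD, hij⟩
  · obtain ⟨x, hx⟩ := complex_of_qq hfin hc (y := ee z) (p := p) (by
      rw [← hv, hz, ee_smul]
      congr 1
      funext k
      exact (map_ee (Algebra.ofId ℂ N) z k).symm)
    exact ⟨c, x, hc, hx⟩
  obtain ⟨l, m, hlm, hl, hm⟩ := exists_left_ker (jac Q p) hind
    (by rw [jac_mulVec, qb_comm hQ, hu]) (by rw [jac_mulVec, qb_comm hQ, hu'])
  have key : ∀ l : Fin 4 → N, (jac Q p).transpose.mulVec l = 0 →
      (∀ u : Fin 4 → N, ∑ i, l i * qb Q p u i = 0) ∧ ∑ k, v k * EE l v k = 0 ∧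
        ∑ k, D (v k) * EE l v k = 0 := by
    intro l hl
    have h1 : ∀ u : Fin 4 → N, ∑ i, l i * qb Q p u i = 0 := fun u => by
      rw [qb_comm hQ]
      exact left_ker_apply p l hl u
    refine ⟨h1, ?_, ?_⟩
    · rw [← EE_self, hv]
      exact h1 p
    · rw [← EE_dot]
      have h2 : ∀ i, 2 * qb Q p (fun j => D (p j)) i = 2 * eb v (fun j => D (v j)) i := by
        intro i
        rw [← der_ee D v i, hv, der_qq hQ D hD]
      have h3 : ∀ i, l i * eb v (fun j => D (v j)) i = l i * qb Q p (fun j => D (p j)) i := by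
        intro i
        have h4 := mul_left_cancel₀ (two_ne_zero (α := N)) (h2 i)
        rw [h4]
      simp only [h3]
      exact h1 _
  obtain ⟨l1, l2, l3⟩ := key l hl
  obtain ⟨m1, m2, m3⟩ := key m hm
  have hcr : cr (EE l v) (EE m v) = 0 := by
    by_contra hne
    obtain ⟨k, hk⟩ := exists_coord_ne hne
    apply hij
    have a1 := cr_01 l2 m2 k i
    have a2 := cr_01 l2 m2 k j
    have b1 := cr_01 (v := fun k => D (v k)) l3 m3 k i
    have b2 := cr_01 (v := fun k => D (v k)) l3 m3 k j
    have h1 : cr (EE l v) (EE m v) k ^ 2 * (v i * D (v j) - v j * D (v i)) = 0 := by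
      have e1 : cr (EE l v) (EE m v) k ^ 2 * (v i * D (v j)) =
          (cr (EE l v) (EE m v) k * v i) * (cr (EE l v) (EE m v) k * D (v j)) := by ring
      have e2 : cr (EE l v) (EE m v) k ^ 2 * (v j * D (v i)) =
          (cr (EE l v) (EE m v) k * v j) * (cr (EE l v) (EE m v) k * D (v i)) := by ring
      rw [mul_sub, e1, e2, a1, a2, b1, b2]
      ring
    exact (mul_eq_zero.1 h1).resolve_left (pow_ne_zero 2 hk)
  obtain ⟨α, β, hαβ, hdep⟩ := dep_of_cr hcr
  have hL : α • l + β • m ≠ 0 := by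
    intro h0
    rw [LinearIndependent.pair_iff] at hlm
    obtain ⟨h1, h2⟩ := hlm α β h0
    rcases hαβ with h3 | h3
    · exact h3 h1
    · exact h3 h2
  obtain ⟨s, t, o₀, v₀, l₀, hs, -, e1, -, -⟩ := h.ext hv.symm (Or.inl hp) hL (fun u => by
    have h1 : ∑ i, (α • l + β • m) i * qb Q p u i =
        α * ∑ i, l i * qb Q p u i + β * ∑ i, m i * qb Q p u i := by
      rw [Finset.mul_sum, Finset.mul_sum, ← Finset.sum_add_distrib]
      refine Finset.sum_congr rfl fun i _ => ?_
      simp only [Pi.add_apply, Pi.smul_apply, smul_eq_mul]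
      ring
    rw [h1, l1, m1]
    ring) (by rw [EE_add, EE_smul, EE_smul, hdep])
  exact ⟨s, o₀, hs, e1⟩

end Vale.Agent.P297.C8
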