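import Vale.Agent.P297.H212.Camp.Final
import Vale.Agent.P297.H55.Iso.Rk

/-!
The linking relation for the pairs of points whose sum and difference are not complex vectors.
-/

set_option linter.unusedSectionVars false
set_option linter.style.haveILetI false

open IntermediateField Polynomial

namespace Vale.Agent.P297.H55.Nd

open Vale.Agent.P297 Vale.Agent.P297.Gen Vale.Agent.P297.Z3 Vale.Agent.P297.C8
open Vale.Agent.P297.H72 Vale.Agent.P297.H777 Vale.Agent.P297.H637 Vale.Agent.P297.H212.Camp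

section pair

variable {N : Type} [Field N] [Algebra ℂ N]

/-- The conditions on the web which are used over `N`. -/
structure WebI (Q : Web) (N : Type) [Field N] [Algebra ℂ N] : Prop where
  symm : ∀ i, (Q i).IsSymm
  zero : ∀ p : Fin 4 → N, qq Q p = 0 → p = 0
  int : ∀ E : IntermediateField ℂ N, Closed E → ∀ p : Fin 4 → N, (∀ i, qq Q p i ∈ E) →
    ∀ j, p j ∈ E
  rk : ∀ p u v : Fin 4 → N, st (qq Q p) = 0 → p ≠ 0 → qb Q p u = 0 → qb Q p v = 0 → u ≠ 0 →
    (∃ c : N, v = c • u) ∨ ∃ (c : N) (x : Fin 4 → ℂ), c ≠ 0 ∧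
      p = c • (fun j => algebraMap ℂ N (x j))
  jac : ∀ p u : Fin 4 → N, GenW Q p → qb Q p u = 0 → u = 0

/-- Two different points with the same image, the first is generic, and the sum and the difference
are not complex vectors up to a scalar. -/
structure PairN (Q : Web) (o o' : Fin 4 → N) : Prop where
  gen : GenW Q o
  eq : qq Q o' = qq Q o
  ne : o' ≠ o
  ne' : o' ≠ -o
  nd : ∀ (c : N) (z : Fin 4 → ℂ), o + o' ≠ c • (fun j => algebraMap ℂ N (z j))
  nd' : ∀ (c : N) (z : Fin 4 → ℂ), o - o' ≠ c • (fun j => algebraMap ℂ N (z j))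

variable {K : Type} [Field K] [Algebra ℂ K] {Q : Web} {x : Fin 4 → K} {o o' : Fin 4 → N}

theorem PairN.xy (W : WebI Q N) (h : PairN Q o o') : qb Q (o + o') (o - o') = 0 := by
  rw [sub_eq_add_neg, qb_add_left, qb_add_right, qb_add_right, qb_neg_right, qb_neg_right,
    qb_comm W.symm o' o]
  have h1 := h.eq
  unfold qq at h1
  rw [h1]
  abel

theorem PairN.qqx (W : WebI Q N) (h : PairN Q o o') :
    qq Q (o + o') = (2 : N) • (qq Q o + qb Q o o') := by
  rw [qq_add W.symm, h.eq]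
  module

theorem PairN.qqy (W : WebI Q N) (h : PairN Q o o') :
    qq Q (o - o') = (2 : N) • (qq Q o - qb Q o o') := by
  have h1 : qq Q (-o') = qq Q o' := by
    have h2 := qq_smul Q (-1 : N) o'
    rwa [neg_one_smul, neg_one_sq, one_smul] at h2
  rw [sub_eq_add_neg, qq_add W.symm, h1, qb_neg_right, h.eq]
  module

theorem PairN.indep (hx : C8.IsFF Q x) (h : PairN Q o o') {a b : N}
    (hab : a • (o + o') + b • (o - o') = 0) : a = 0 ∧ b = 0 := by
  have h1 : (a + b) • o = (b - a) • o' := by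
    have h2 : (a + b) • o - (b - a) • o' = a • (o + o') + b • (o - o') := by module
    rw [← sub_eq_zero, h2, hab]
  by_cases hba : b - a = 0
  · rw [hba, zero_smul] at h1
    have h2 := smul_zero' h1 (GenW.ne_zero h.gen)
    have h3 : b = a := sub_eq_zero.1 hba
    rw [h3] at h2
    have h4 : (2 : N) * a = 0 := by linear_combination h2
    have h5 := (mul_eq_zero.1 h4).resolve_left (char_two N)
    exact ⟨h5, h3.trans h5⟩
  · exfalso
    obtain ⟨κ, hκ⟩ : ∃ κ, κ = (a + b) / (b - a) := ⟨_, rfl⟩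
    have h2 : o' = κ • o := by
      have h3 : (b - a)⁻¹ • ((a + b) • o) = (b - a)⁻¹ • ((b - a) • o') := by rw [h1]
      rw [smul_smul, smul_smul, inv_mul_cancel₀ hba, one_smul] at h3
      rw [← h3, hκ, inv_mul_eq_div]
    have h3 := h.eq
    rw [h2, qq_smul] at h3
    have h4 := congrFun h3 1
    simp only [Pi.smul_apply, smul_eq_mul] at h4
    have h5 : κ ^ 2 = 1 := by
      apply mul_right_cancel₀ (qq_ne hx h.gen (i := 1) (by decide))
      rw [h4, one_mul]
    have h6 : (κ - 1) * (κ + 1) = 0 := by linear_combination h5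
    rcases mul_eq_zero.1 h6 with h7 | h7
    · exact h.ne (by rw [h2, sub_eq_zero.1 h7, one_smul])
    · exact h.ne' (by rw [h2, eq_neg_of_add_eq_zero_left h7, neg_one_smul])

variable [IsAlgClosed N]

/-- The line is not contained in the octic. -/
theorem PairN.st_ne (W : WebI Q N) (hx : C8.IsFF Q x) (h : PairN Q o o')
    (hall : ∀ a b : N, a ≠ 0 → st (a • qq Q (o + o') + b • qq Q (o - o')) = 0) : False := by
  have := infinite_of N
  have h20 := char_two N
  obtain ⟨g, hg⟩ : ∃ g, g = qq Q (o + o') := ⟨_, rfl⟩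
  obtain ⟨k, hk⟩ : ∃ k, k = qq Q (o - o') := ⟨_, rfl⟩
  rw [← hg, ← hk] at hall
  have hgk : g + k = (4 : N) • qq Q o := by
    rw [hg, hk, h.qqx W, h.qqy W]
    module
  have h40 : (4 : N) ≠ 0 := by
    have h4 : (4 : N) = 2 * 2 := by norm_num
    rw [h4]
    exact mul_ne_zero h20 h20
  obtain ⟨κ, hκ⟩ := st_line (y := qq Q o) (f := k) (qq_ne hx h.gen (by decide))
    (qq_ne hx h.gen (by decide)) (qq_ne hx h.gen (by decide)) h20 (by
    intro b
    have h1 : qq Q o + b • k = ((4 : N)⁻¹) • g + ((4 : N)⁻¹ + b) • k := by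
      have h2 : qq Q o = ((4 : N)⁻¹) • (g + k) := by
        rw [hgk, smul_smul, inv_mul_cancel₀ h40, one_smul]
      rw [h2]
      module
    rw [h1]
    exact hall _ _ (inv_ne_zero h40))
  have hg' : g = (4 - κ) • qq Q o := by
    have h1 : g = (4 : N) • qq Q o - k := by rw [← hgk]; abel
    rw [h1, hκ]
    module
  obtain ⟨a, ha⟩ := IsAlgClosed.exists_pow_nat_eq κ (n := 2) (by norm_num)
  obtain ⟨b, hb⟩ := IsAlgClosed.exists_pow_nat_eq (-(4 - κ)) (n := 2) (by norm_num)
  have h1 : qq Q (a • (o + o') + b • (o - o')) = 0 := by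
    rw [qq_add W.symm, qq_smul, qq_smul, qb_smul_left, qb_smul_right, h.xy W, ← hg, ← hk, hg', hκ,
      ha, hb]
    module
  have h2 := h.indep hx (W.zero _ h1)
  rw [h2.1] at ha
  rw [h2.2] at hb
  apply h40
  linear_combination hb - ha

/-- The line is not defined over a field of transcendence degree one. -/
theorem PairN.core (W : WebI Q N) (hx : C8.IsFF Q x) (h : PairN Q o o') {θ a b : N} (ha : a ≠ 0)
    (hb : b ≠ 0) {X Y : Fin 4 → N} (hX : ∀ i, X i ∈ cl0 {θ}) (hY : ∀ i, Y i ∈ cl0 {θ})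
    (h1 : o + o' = a • X) (h2 : o - o' = b • Y) : False := by
  have h20 := char_two N
  obtain ⟨E, hE⟩ : ∃ E, E = cl0 ({θ} : Set N) := ⟨_, rfl⟩
  have hEc : Closed E := by rw [hE]; exact closed_cl0 _
  rw [← hE] at hX hY
  have hqb : qb Q X Y = 0 := by
    have h3 := h.xy W
    rw [h1, h2, qb_smul_left, qb_smul_right, smul_smul] at h3
    exact (smul_eq_zero.1 h3).resolve_left (mul_ne_zero ha hb)
  -- the coefficients
  have hqE : ∀ Z : Fin 4 → N, (∀ i, Z i ∈ E) → ∀ i, qq Q Z i ∈ E := by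
    intro Z hZ i
    rw [qq_apply]
    exact sum_mem fun k _ => sum_mem fun l _ =>
      mul_mem (E.algebraMap_mem _) (mul_mem (hZ k) (hZ l))
  let u : Fin 4 → E := fun i => ⟨qq Q X i, hqE X hX i⟩
  let v : Fin 4 → E := fun i => ⟨qq Q Y i, hqE Y hY i⟩
  let P : (E : Type)[X] := st (fun i => Polynomial.C (u i) + Polynomial.X ^ 2 * Polynomial.C (v i))
  have hP : ∀ t : N, aeval t P = st (qq Q X + t ^ 2 • qq Q Y) := by
    intro t
    have h3 := map_st ((aeval t : (E : Type)[X] →ₐ[E] N).restrictScalars ℂ)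
      (fun i => Polynomial.C (u i) + Polynomial.X ^ 2 * Polynomial.C (v i))
    have h4 : aeval t P = ((aeval t : (E : Type)[X] →ₐ[E] N).restrictScalars ℂ)
      (st (fun i => Polynomial.C (u i) + Polynomial.X ^ 2 * Polynomial.C (v i))) := rfl
    rw [h4, h3]
    congr 1
    funext i
    change aeval t (Polynomial.C (u i) + Polynomial.X ^ 2 * Polynomial.C (v i)) = _
    rw [map_add, map_mul, map_pow, aeval_C, aeval_C, aeval_X]
    rfl
  have hqq : ∀ t : N, qq Q (X + t • Y) = qq Q X + t ^ 2 • qq Q Y := by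
    intro t
    rw [qq_add W.symm, qb_smul_right, qq_smul, hqb]
    module
  have ho : o = (a / 2) • (X + (b / a) • Y) := by
    have h3 : (2 : N) • o = a • X + b • Y := by rw [← h1, ← h2]; module
    have h4 : o = (2 : N)⁻¹ • ((2 : N) • o) := by rw [smul_smul, inv_mul_cancel₀ h20, one_smul]
    rw [h4, h3, smul_add, smul_add, smul_smul, smul_smul, smul_smul]
    congr 2
    · ring
    · field_simp
  have ha2 : a / 2 ≠ 0 := div_ne_zero ha h20
  have hroot : aeval (b / a) P = 0 := by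
    rw [hP, ← hqq]
    have h3 := h.gen.zero
    rw [ho, qq_smul, st_smul] at h3
    exact (mul_eq_zero.1 h3).resolve_left (pow_ne_zero _ (pow_ne_zero _ ha2))
  have hP0 : P ≠ 0 := by
    intro hP0
    apply h.st_ne W hx
    intro c d hc
    obtain ⟨t, ht⟩ := IsAlgClosed.exists_pow_nat_eq (d * b ^ 2 / (c * a ^ 2)) (n := 2) (by norm_num)
    have h3 := hP t
    rw [hP0, map_zero, ht] at h3
    have h4 : c • qq Q (o + o') + d • qq Q (o - o') =
        (c * a ^ 2) • (qq Q X + (d * b ^ 2 / (c * a ^ 2)) • qq Q Y) := by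
      rw [h1, h2, qq_smul, qq_smul, smul_add, smul_smul, smul_smul, smul_smul,
        mul_div_cancel₀ _ (mul_ne_zero hc (pow_ne_zero 2 ha))]
    rw [h4, st_smul, ← h3, mul_zero]
  have hs : b / a ∈ E := hEc _ ⟨P, hP0, hroot⟩
  refine GenW.notMem h.gen (θ := θ) (c := (a / 2)⁻¹) (inv_ne_zero ha2) fun i => ?_
  have h3 : (a / 2)⁻¹ * o i = X i + (b / a) * Y i := by
    rw [ho]
    simp only [Pi.smul_apply, Pi.add_apply, smul_eq_mul]
    rw [inv_mul_cancel_left₀ ha2]
  rw [h3, ← hE]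
  exact add_mem (hX i) (mul_mem hs (hY i))

/-- **[GEN]** The points of the octic on the line are generic. -/
theorem PairN.gen_pt (W : WebI Q N) (hx : C8.IsFF Q x) (h : PairN Q o o') {a b : N}
    (hab : a ≠ 0 ∨ b ≠ 0) (h0 : st (qq Q (a • (o + o') + b • (o - o'))) = 0) :
    GenW Q (a • (o + o') + b • (o - o')) := by
  by_contra hn
  have h20 := char_two N
  have hp : a • (o + o') + b • (o - o') ≠ 0 := by
    intro h1
    obtain ⟨h2, h3⟩ := h.indep hx h1
    rcases hab with h4 | h4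
    · exact h4 h2
    · exact h4 h3
  obtain ⟨θ, c, hc, hE⟩ := exists_of_not hx hp h0 hn
  have hx0 : o + o' ≠ 0 := fun h1 => h.ne' (eq_neg_of_add_eq_zero_right h1)
  have hy0 : o - o' ≠ 0 := fun h1 => h.ne (sub_eq_zero.1 h1).symm
  have hqb := h.xy W
  by_cases ha : a = 0
  · -- `p = b • (o - o')`
    have hb : b ≠ 0 := hab.resolve_left (fun h1 => h1 ha)
    have hcb : c * b ≠ 0 := mul_ne_zero hc hb
    have hY : ∀ i, ((c * b) • (o - o')) i ∈ cl0 {θ} := by
      intro i
      have h1 := hE i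
      rw [ha, zero_smul, zero_add] at h1
      rw [mul_smul]
      exact h1
    have hk : qb Q ((c * b) • (o - o')) (o + o') = 0 := by
      rw [qb_smul_left, qb_comm W.symm, hqb, smul_zero]
    obtain ⟨X, hX0, hXE, hXk⟩ := exists_ker hY hx0 hk
    have hstY : st (qq Q ((c * b) • (o - o'))) = 0 := by
      rw [ha, zero_smul, zero_add] at h0
      rw [mul_smul, qq_smul, st_smul, h0, mul_zero]
    rcases W.rk _ X (o + o') hstY (smul_ne_zero hcb hy0) hXk hk hX0 with ⟨d, hd⟩ |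
      ⟨t, x₀, -, h5⟩
    swap
    · exact h.nd' ((c * b)⁻¹ * t) x₀ (by
        rw [mul_smul, ← h5, smul_smul, inv_mul_cancel₀ hcb, one_smul])
    have hd0 : d ≠ 0 := by
      rintro rfl
      exact hx0 (by rw [hd, zero_smul])
    refine h.core W hx hd0 (inv_ne_zero hcb) hXE hY hd ?_
    rw [smul_smul, inv_mul_cancel₀ hcb, one_smul]
  by_cases hb : b = 0
  · have hca : c * a ≠ 0 := mul_ne_zero hc ha
    have hX : ∀ i, ((c * a) • (o + o')) i ∈ cl0 {θ} := by
      intro i
      have h1 := hE i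
      rw [hb, zero_smul, add_zero] at h1
      rw [mul_smul]
      exact h1
    have hk : qb Q ((c * a) • (o + o')) (o - o') = 0 := by
      rw [qb_smul_left, hqb, smul_zero]
    obtain ⟨Y, hY0, hYE, hYk⟩ := exists_ker hX hy0 hk
    have hstX : st (qq Q ((c * a) • (o + o'))) = 0 := by
      rw [hb, zero_smul, add_zero] at h0
      rw [mul_smul, qq_smul, st_smul, h0, mul_zero]
    rcases W.rk _ Y (o - o') hstX (smul_ne_zero hca hx0) hYk hk hY0 with ⟨d, hd⟩ |
      ⟨t, x₀, -, h5⟩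
    swap
    · exact h.nd ((c * a)⁻¹ * t) x₀ (by
        rw [mul_smul, ← h5, smul_smul, inv_mul_cancel₀ hca, one_smul])
    have hd0 : d ≠ 0 := by
      rintro rfl
      exact hy0 (by rw [hd, zero_smul])
    refine h.core W hx (inv_ne_zero hca) hd0 hX hYE ?_ hd
    rw [smul_smul, inv_mul_cancel₀ hca, one_smul]
  -- both coefficients are not zero
  have hqq : ∀ e : N, qq Q (c • (a • (o + o') + (e * b) • (o - o'))) =
      (c ^ 2) • (a ^ 2 • qq Q (o + o') + (e * b) ^ 2 • qq Q (o - o')) := by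
    intro e
    rw [qq_smul, qq_add W.symm, qq_smul, qq_smul, qb_smul_left, qb_smul_right, hqb]
    congr 1
    module
  have hE' : ∀ i, (c • (a • (o + o') + ((-1) * b) • (o - o'))) i ∈ cl0 {θ} := by
    refine W.int _ (closed_cl0 _) _ fun i => ?_
    have h1 : qq Q (c • (a • (o + o') + ((-1) * b) • (o - o'))) =
        qq Q (c • (a • (o + o') + (1 * b) • (o - o'))) := by
      rw [hqq, hqq]
      congr 3
      ring
    rw [h1, one_mul, qq_apply]
    exact sum_mem fun k _ => sum_mem fun l _ =>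
      mul_mem ((cl0 {θ}).algebraMap_mem _) (mul_mem (hE k) (hE l))
  have h2E : ∀ z ∈ cl0 ({θ} : Set N), (2 : N)⁻¹ * z ∈ cl0 ({θ} : Set N) := by
    intro z hz
    refine mul_mem (inv_mem ?_) hz
    exact ofNat_mem _ 2
  refine h.core W hx (a := (c * a)⁻¹) (b := (c * b)⁻¹) (θ := θ)
    (X := (c * a) • (o + o')) (Y := (c * b) • (o - o'))
    (inv_ne_zero (mul_ne_zero hc ha)) (inv_ne_zero (mul_ne_zero hc hb)) ?_ ?_ ?_ ?_
  · intro i
    have h1 := h2E _ (add_mem (hE i) (hE' i))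
    have h2 : (2 : N)⁻¹ * (c * (a • (o + o') + b • (o - o')) i +
        (c • (a • (o + o') + ((-1) * b) • (o - o'))) i) = ((c * a) • (o + o')) i := by
      simp only [Pi.add_apply, Pi.smul_apply, Pi.sub_apply, smul_eq_mul]
      field_simp
      ring
    rwa [h2] at h1
  · intro i
    have h1 := h2E _ (sub_mem (hE i) (hE' i))
    have h2 : (2 : N)⁻¹ * (c * (a • (o + o') + b • (o - o')) i -
        (c • (a • (o + o') + ((-1) * b) • (o - o'))) i) = ((c * b) • (o - o')) i := by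
      simp only [Pi.add_apply, Pi.smul_apply, Pi.sub_apply, smul_eq_mul]
      field_simp
      ring
    rwa [h2] at h1
  · rw [smul_smul, inv_mul_cancel₀ (mul_ne_zero hc ha), one_smul]
  · rw [smul_smul, inv_mul_cancel₀ (mul_ne_zero hc hb), one_smul]

end pair

section

variable {K N : Type} [Field K] [Algebra ℂ K] [Field N] [Algebra ℂ N] [IsAlgClosed N]
  {Q : Web} {x : Fin 4 → K} {o o' : Fin 4 → N}

theorem PairN.st_y (W : WebI Q N) (hx : C8.IsFF Q x) (h : PairN Q o o') :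
    st (qq Q (o - o')) ≠ 0 := by
  intro h0
  have hy0 : o + o' ≠ 0 := fun h1 => h.ne' (eq_neg_of_add_eq_zero_right h1)
  have h1 := h.gen_pt W hx (a := 0) (b := 1) (Or.inr one_ne_zero) (by
    rw [zero_smul, zero_add, one_smul]
    exact h0)
  rw [zero_smul, zero_add, one_smul] at h1
  exact hy0 (W.jac _ _ h1 (by rw [qb_comm W.symm, h.xy W]))

/-- A point of the line over a point of the octic has nonzero coordinates. -/
theorem PairN.ne_of_st (W : WebI Q N) (hx : C8.IsFF Q x) (h : PairN Q o o') {a b : N}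
    (hb : b ≠ 0) {y : Fin 4 → N} (hy : y = a • qq Q o + b • qb Q o o') (h0 : st y = 0)
    {i : Fin 4} (hi : i ≠ 0) : y i ≠ 0 := by
  have h20 := char_two N
  obtain ⟨c, hc⟩ := IsAlgClosed.exists_pow_nat_eq (a + b) (n := 2) (by norm_num)
  obtain ⟨d, hd⟩ := IsAlgClosed.exists_pow_nat_eq (a - b) (n := 2) (by norm_num)
  have h1 : qq Q (c • (o + o') + d • (o - o')) = (4 : N) • y := by
    rw [qq_add W.symm, qq_smul, qq_smul, qb_smul_left, qb_smul_right, h.xy W, hc, hd, h.qqx W,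
      h.qqy W, hy]
    module
  have hcd : c ≠ 0 ∨ d ≠ 0 := by
    by_contra hcon
    push Not at hcon
    rw [hcon.1] at hc
    rw [hcon.2] at hd
    apply hb
    have h2 : 2 * b = 0 := by linear_combination hd - hc
    exact (mul_eq_zero.1 h2).resolve_left h20
  have h2 := h.gen_pt W hx hcd (by rw [h1, st_smul, h0, mul_zero])
  have h3 := qq_ne hx h2 hi
  rw [h1, Pi.smul_apply, smul_eq_mul] at h3
  exact right_ne_zero_of_mul h3

theorem PairN.Pf_ne (W : WebI Q N) (hx : C8.IsFF Q x) (h : PairN Q o o') :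
    Pf (vy (qq Q o)) (qb Q o o') ≠ 0 := by
  obtain ⟨z, hz⟩ : ∃ z, z = qq Q o := ⟨_, rfl⟩
  obtain ⟨f, hf⟩ : ∃ f, f = qb Q o o' := ⟨_, rfl⟩
  have z1 : z 1 ≠ 0 := by rw [hz]; exact qq_ne hx h.gen (by decide)
  have z2 : z 2 ≠ 0 := by rw [hz]; exact qq_ne hx h.gen (by decide)
  have z3 : z 3 ≠ 0 := by rw [hz]; exact qq_ne hx h.gen (by decide)
  rw [← hz, ← hf]
  unfold Pf
  simp only [vy_zero, vy_one, vy_two]
  refine mul_ne_zero (mul_ne_zero ?_ ?_) ?_
  · intro h0
    have h1 : z 2 * f 1 = z 1 * f 2 := by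
      apply mul_left_cancel₀ z3
      linear_combination h0
    have h2 : ((- f 1) • z + z 1 • f) 1 = 0 := by
      simp only [Pi.add_apply, Pi.smul_apply, smul_eq_mul]
      ring
    have h3 : ((- f 1) • z + z 1 • f) 2 = 0 := by
      simp only [Pi.add_apply, Pi.smul_apply, smul_eq_mul]
      linear_combination -h1
    refine h.ne_of_st W hx (a := - f 1) (b := z 1) z1 (y := (- f 1) • z + z 1 • f)
      (by rw [hz, hf]) ?_ (i := 1) (by decide) h2
    rw [st, h2, h3]
    ring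
  · intro h0
    have h1 : z 3 * f 2 = z 2 * f 3 := by
      apply mul_left_cancel₀ z1
      linear_combination h0
    have h2 : ((- f 2) • z + z 2 • f) 2 = 0 := by
      simp only [Pi.add_apply, Pi.smul_apply, smul_eq_mul]
      ring
    have h3 : ((- f 2) • z + z 2 • f) 3 = 0 := by
      simp only [Pi.add_apply, Pi.smul_apply, smul_eq_mul]
      linear_combination -h1
    refine h.ne_of_st W hx (a := - f 2) (b := z 2) z2 (y := (- f 2) • z + z 2 • f)
      (by rw [hz, hf]) ?_ (i := 2) (by decide) h2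
    rw [st, h2, h3]
    ring
  · intro h0
    have h1 : z 1 * f 3 = z 3 * f 1 := by
      apply mul_left_cancel₀ z2
      linear_combination h0
    have h2 : ((- f 3) • z + z 3 • f) 3 = 0 := by
      simp only [Pi.add_apply, Pi.smul_apply, smul_eq_mul]
      ring
    have h3 : ((- f 3) • z + z 3 • f) 1 = 0 := by
      simp only [Pi.add_apply, Pi.smul_apply, smul_eq_mul]
      linear_combination -h1
    refine h.ne_of_st W hx (a := - f 3) (b := z 3) z3 (y := (- f 3) • z + z 3 • f)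
      (by rw [hz, hf]) ?_ (i := 3) (by decide) h2
    rw [st, h2, h3]
    ring

/-- **The three lines.** -/
theorem PairN.exists_lines (W : WebI Q N) (hx : C8.IsFF Q x) (h : PairN Q o o') :
    ∃ m : Fin 3 → Fin 3 → N, (∀ k, Lk Q o o' (m k)) ∧ ∃ c : N, c ≠ 0 ∧
      pq (m 0) (qq Q (o + o')) (qq Q (o - o')) * pq (m 1) (qq Q (o + o')) (qq Q (o - o')) *
        pq (m 2) (qq Q (o + o')) (qq Q (o - o')) =
      C c * (X - 1) ^ 2 * (X + 1) ^ 2 * st (pY (qq Q (o + o')) (qq Q (o - o'))) := by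
  have h20 := char_two N
  obtain ⟨z, hz⟩ : ∃ z, z = qq Q o := ⟨_, rfl⟩
  obtain ⟨f, hf⟩ : ∃ f, f = qb Q o o' := ⟨_, rfl⟩
  obtain ⟨v, hv⟩ : ∃ v, v = vy z := ⟨_, rfl⟩
  have hst := h.st_y W hx
  have hP := h.Pf_ne W hx
  have hstz : st z = 0 := by rw [hz]; exact h.gen.zero
  rw [h.qqx W, h.qqy W, ← hz, ← hf]
  rw [h.qqy W, ← hz, ← hf] at hst
  rw [← hz, ← hf, ← hv] at hP
  have z1 : z 1 ≠ 0 := by rw [hz]; exact qq_ne hx h.gen (by decide)
  have z2 : z 2 ≠ 0 := by rw [hz]; exact qq_ne hx h.gen (by decide)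
  have z3 : z 3 ≠ 0 := by rw [hz]; exact qq_ne hx h.gen (by decide)
  have hz0 : z 1 * z 2 * z 3 ≠ 0 := mul_ne_zero (mul_ne_zero z1 z2) z3
  have v0 : v 0 ≠ 0 := by rw [hv]; exact mul_ne_zero z2 z3
  have v1 : v 1 ≠ 0 := by rw [hv]; exact mul_ne_zero z1 z3
  have v2 : v 2 ≠ 0 := by rw [hv]; exact mul_ne_zero z1 z2
  obtain ⟨hP1, hP3⟩ := mul_ne_zero_iff.1 hP
  obtain ⟨hP1, hP2⟩ := mul_ne_zero_iff.1 hP1
  have hk3 : kc v f 3 ≠ 0 := by
    have h1 : kc v f 3 = v 1 * v 2 * (v 1 * f 2 - v 2 * f 3) := by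
      rw [kc_three]
      ring
    rw [h1]
    exact mul_ne_zero (mul_ne_zero v1 v2) hP2
  obtain ⟨c, hc2, hc1, hc0⟩ := exists_cubic (kc v f) hk3
  have hkap : ∀ s t : N, kap v f s t =
      kc v f 3 * ((s - c 0 * t) * (s - c 1 * t) * (s - c 2 * t)) := fun s t => by
    rw [kap_eq, hc2, hc1, hc0]
    ring
  have hroot : ∀ k, kap v f (c k) 1 = 0 := by
    intro k
    rw [hkap]
    fin_cases k
    · simp
    · simp
    · simp
  -- the coordinates of the lines
  have hm : ∀ k, ∀ i, (mB v + c k • mA v) i ≠ 0 := by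
    intro k i
    have hr := hroot k
    fin_cases i
    · simp only [Fin.zero_eta, Pi.add_apply, Pi.smul_apply, smul_eq_mul, mB_zero, mA_zero,
        mul_zero, add_zero]
      exact v2
    · simp only [Fin.mk_one, Pi.add_apply, Pi.smul_apply, smul_eq_mul, mB_one, mA_one, zero_add]
      intro h1
      have h2 : c k = 0 := (mul_eq_zero.1 h1).resolve_right v2
      rw [h2, kap_eq, kc_zero] at hr
      apply mul_ne_zero (mul_ne_zero v0 v2) hP3
      linear_combination -hr
    · simp only [Fin.reduceFinMk, Pi.add_apply, Pi.smul_apply, smul_eq_mul, mB_two, mA_two]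
      intro h1
      have h2 : c k * v 1 = - v 0 := by linear_combination -h1
      rw [kap_eq, kc_zero, kc_one, kc_two, kc_three] at hr
      apply mul_ne_zero (mul_ne_zero v0 (pow_ne_zero 3 v2)) hP1
      have h3 : c k = - v 0 / v 1 := by rw [eq_div_iff v1, h2]
      rw [h3] at hr
      field_simp at hr
      linear_combination hr
  have hdz : ∀ k, dt (lm (mB v + c k • mA v)) z = 0 := by
    intro k
    have h1 : dt (lm (mB v + c k • mA v)) (ee v) = 0 := by
      rw [dt_ee]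
      simp only [Pi.add_apply, Pi.smul_apply, smul_eq_mul, mB_zero, mB_one, mB_two, mA_zero,
        mA_one, mA_two]
      ring
    rw [hv, ee_vy hstz, dt_smul, ← hv] at h1
    exact (mul_eq_zero.1 h1).resolve_left (mul_ne_zero h20 hz0)
  have hdf : ∀ k, dt (lm (mB v + c k • mA v)) f = 0 := by
    intro k
    have h1 := hroot k
    unfold kap at h1
    rw [one_smul, add_comm] at h1
    exact h1
  -- the product
  have hprod := prod_cm (R := N) hv hstz h20 hz0 2 (-2) (neg_ne_zero.2 h20)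
    (y := (2 : N) • (z - f)) (by module) hkap
  have hcy : ∀ k, cm (mB v + c k • mA v) ((2 : N) • (z - f)) ≠ 0 := by
    have h1 : cm (mB v + c 0 • mA v) ((2 : N) • (z - f)) *
        cm (mB v + c 1 • mA v) ((2 : N) • (z - f)) *
        cm (mB v + c 2 • mA v) ((2 : N) • (z - f)) ≠ 0 := by
      intro h1
      rw [h1, mul_zero] at hprod
      have h2 : v 2 ^ 3 * Pf v f * (-2) ^ 2 * st ((2 : N) • (z - f)) ≠ 0 :=
        mul_ne_zero (mul_ne_zero (mul_ne_zero (pow_ne_zero 3 v2) hP)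
          (pow_ne_zero 2 (neg_ne_zero.2 h20))) hst
      apply h2
      linear_combination hprod
    obtain ⟨h2, h3⟩ := mul_ne_zero_iff.1 h1
    obtain ⟨h4, h5⟩ := mul_ne_zero_iff.1 h2
    intro k
    fin_cases k
    · exact h4
    · exact h5
    · exact h3
  refine ⟨fun k => mB v + c k • mA v, fun k => ⟨hm k, ?_, ?_, ?_, ?_⟩,
    - (4 * v 2 ^ 3 * Pf v f) / kc v f 3, ?_, ?_⟩
  · rw [h.qqx W, ← hz, ← hf, dt_smul, dt_add, hdz, hdf, add_zero, mul_zero]
  · rw [h.qqy W, ← hz, ← hf, dt_smul, sub_eq_add_neg, dt_add, hdz, ← neg_one_smul N f, dt_smul, hdf,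
      mul_zero, add_zero, mul_zero]
  · rw [h.qqy W, ← hz, ← hf]
    exact hcy k
  · rw [← hz, cm_eq, Fin.sum_univ_three, ← hv]
    simp only [Pi.add_apply, Pi.smul_apply, smul_eq_mul, mB_zero, mB_one, mB_two, mA_zero,
      mA_one, mA_two]
    ring
  · refine div_ne_zero (neg_ne_zero.2 (mul_ne_zero (mul_ne_zero ?_ (pow_ne_zero 3 v2)) hP)) hk3
    have h4 : (4 : N) = 2 * 2 := by norm_num
    rw [h4]
    exact mul_ne_zero h20 h20
  · -- the identity of polynomials
    obtain ⟨v', hv'⟩ : ∃ v' : Fin 3 → N[X], v' = fun i => C (v i) := ⟨_, rfl⟩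
    obtain ⟨z', hz'⟩ : ∃ z' : Fin 4 → N[X], z' = fun i => C (z i) := ⟨_, rfl⟩
    obtain ⟨f', hf'⟩ : ∃ f' : Fin 4 → N[X], f' = fun i => C (f i) := ⟨_, rfl⟩
    have hkc : ∀ i, kc v' f' i = C (kc v f i) := by
      intro i
      rw [hv', hf']
      fin_cases i
      · simp only [Fin.zero_eta, kc_zero, C_mul, C_pow, C_sub]
      · simp only [Fin.mk_one, kc_one, C_mul, C_pow, C_sub, C_add, C_neg]
        rfl
      · simp only [Fin.reduceFinMk, kc_two, C_mul, C_pow, C_sub, C_add, C_neg]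
        rfl
      · simp only [Fin.reduceFinMk, kc_three, C_mul, C_pow, C_sub]
    have hPf : Pf v' f' = C (Pf v f) := by
      rw [hv', hf']
      simp only [Pf, C_mul, C_sub]
    have hb : (2 * (1 - X ^ 2) : N[X]) ≠ 0 := by
      intro h1
      have h2 := congrArg (eval 0) h1
      simp only [eval_mul, eval_ofNat, eval_sub, eval_one, eval_pow, eval_X, eval_zero] at h2
      apply h20
      linear_combination h2
    have hst' : st z' = 0 := by
      have h1 : st z' = C (st z) := by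
        rw [hz']
        simp only [st, C_mul, C_sub, C_add, C_pow]
        rfl
      rw [h1, hstz, C_0]
    have h2' : (2 : N[X]) ≠ 0 := by
      intro h1
      have h2 := congrArg (eval 0) h1
      rw [eval_ofNat, eval_zero] at h2
      exact h20 h2
    have hz0' : z' 1 * z' 2 * z' 3 ≠ 0 := by
      rw [hz']
      simp only [← C_mul]
      exact C_ne_zero.2 hz0
    obtain ⟨Y, hY⟩ : ∃ Y, Y = pY ((2 : N) • (z + f)) ((2 : N) • (z - f)) := ⟨_, rfl⟩
    have hY' : Y = (2 * (1 + X ^ 2) : N[X]) • z' + (2 * (1 - X ^ 2) : N[X]) • f' := by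
      rw [hY, hz', hf']
      funext i
      simp only [pY, Pi.smul_apply, Pi.add_apply, Pi.sub_apply, smul_eq_mul, C_mul, C_add, C_sub]
      have h1 : (C 2 : N[X]) = 2 := rfl
      rw [h1]
      ring
    have h5 := prod_cm (R := N[X]) (v := v') (z := z') (f := f') (by
      rw [hv', hz', hv]
      funext i
      fin_cases i
      · simp only [Fin.zero_eta, vy_zero, C_mul]
      · simp only [Fin.mk_one, vy_one, C_mul]
      · simp only [Fin.reduceFinMk, vy_two, C_mul]) hst' h2' hz0' _ _ hb hY'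
      (c₀ := C (c 0)) (c₁ := C (c 1)) (c₂ := C (c 2)) (by
      intro s t
      rw [kap_eq, hkc, hkc, hkc, hkc, hc2, hc1, hc0]
      simp only [C_mul, C_add, C_neg]
      ring)
    have hcm : ∀ k, cm (mB v' + C (c k) • mA v') Y =
        pq (mB v + c k • mA v) ((2 : N) • (z + f)) ((2 : N) • (z - f)) := by
      intro k
      unfold pq
      rw [← hY]
      congr 1
      rw [hv']
      funext i
      fin_cases i
      · simp only [Fin.zero_eta, Pi.add_apply, Pi.smul_apply, smul_eq_mul, mB_zero, mA_zero,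
          mul_zero, C_add, C_0]
      · simp only [Fin.mk_one, Pi.add_apply, Pi.smul_apply, smul_eq_mul, mB_one, mA_one, C_add,
          C_mul, C_0]
      · simp only [Fin.reduceFinMk, Pi.add_apply, Pi.smul_apply, smul_eq_mul, mB_two, mA_two,
          C_add, C_mul, C_neg]
    rw [hcm, hcm, hcm, hkc, hPf] at h5
    rw [← hY]
    have hk3' : C (kc v f 3) ≠ (0 : N[X]) := C_ne_zero.2 hk3
    apply mul_left_cancel₀ hk3'
    rw [h5, hv']
    have h6 : C (kc v f 3) * C (-(4 * v 2 ^ 3 * Pf v f) / kc v f 3) =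
        - (4 * C (v 2) ^ 3 * C (Pf v f) : N[X]) := by
      rw [← C_mul, mul_div_cancel₀ _ hk3]
      simp only [C_neg, C_mul, C_pow]
      rfl
    linear_combination (-((X - 1) ^ 2 * (X + 1) ^ 2 * st Y)) * h6

end

section line

variable {K K' N : Type} [Field K] [Algebra ℂ K] [Field K'] [Algebra ℂ K'] [Field N]
  [Algebra ℂ N] [IsAlgClosed N] {Q : Web} {x : Fin 4 → K} {κ : K' →ₐ[ℂ] K} {m n : ℤ}
  {o o' : Fin 4 → N}

/-- points of the line in terms of `o`, `o'` -/
theorem PairN.gen_comb (W : WebI Q N) (hx : C8.IsFF Q x) (h : PairN Q o o') {a b : N}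
    (hab : a ≠ 0 ∨ b ≠ 0) (h0 : st (qq Q (a • o + b • o')) = 0) :
    GenW Q (a • o + b • o') := by
  have h2 := char_two N
  rw [comb_eq] at h0 ⊢
  refine h.gen_pt W hx ?_ h0
  by_contra hcon
  push Not at hcon
  obtain ⟨h3, h4⟩ := hcon
  have h5 : a + b = 0 := (div_eq_zero_iff.1 h3).resolve_right h2
  have h6 : a - b = 0 := (div_eq_zero_iff.1 h4).resolve_right h2
  have h7 : 2 * a = 0 := by linear_combination h5 + h6
  have h8 : a = 0 := (mul_eq_zero.1 h7).resolve_left h2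
  rcases hab with h9 | h9
  · exact h9 h8
  · apply h9
    linear_combination h5 - h8

theorem PairN.gen' (W : WebI Q N) (hx : C8.IsFF Q x) (h : PairN Q o o') : GenW Q o' := by
  have h1 := h.gen_comb W hx (a := 0) (b := 1) (Or.inr one_ne_zero) (by
    rw [zero_smul, zero_add, one_smul, h.eq]
    exact h.gen.zero)
  rwa [zero_smul, zero_add, one_smul] at h1

theorem PairN.dir_ne (hx : C8.IsFF Q x) (h : PairN Q o o') : dir o o' ≠ 0 := by
  intro h0
  have h1 : dir o o' = ((o' 0 - o 0) / 2) • (o + o') + ((o' 0 + o 0) / 2) • (o - o') := by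
    have h2 := comb_eq (o' 0) (-(o 0)) o o'
    rw [neg_smul, ← sub_eq_add_neg, sub_neg_eq_add, ← sub_eq_add_neg] at h2
    exact h2
  rw [h1] at h0
  obtain ⟨h2, h3⟩ := h.indep hx h0
  have h4 := char_two N
  have h5 : o' 0 - o 0 = 0 := (div_eq_zero_iff.1 h2).resolve_right h4
  have h6 : o' 0 + o 0 = 0 := (div_eq_zero_iff.1 h3).resolve_right h4
  have h7 : 2 * o 0 = 0 := by linear_combination h6 - h5
  exact h.gen.ne ((mul_eq_zero.1 h7).resolve_left h4)

theorem PairN.st_dir (W : WebI Q N) (hx : C8.IsFF Q x) (h : PairN Q o o') :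
    st (qq Q (dir o o')) ≠ 0 := by
  intro h0
  have h1 : dir o o' = (o' 0) • o + (-(o 0)) • o' := by
    unfold dir
    module
  rw [h1] at h0
  have h2 := h.gen_comb W hx (Or.inr (neg_ne_zero.2 h.gen.ne)) h0
  rw [← h1] at h2
  exact h2.ne (dir_zero o o')

theorem PairN.gen_line (W : WebI Q N) (hx : C8.IsFF Q x) (h : PairN Q o o') (t : N)
    (h0 : st (qq Q (aff o + t • dir o o')) = 0) : GenW Q (aff o + t • dir o o') := by
  rw [line_eq] at h0 ⊢
  refine h.gen_comb W hx ?_ h0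
  by_cases ht : t = 0
  · left
    rw [ht, zero_mul, add_zero]
    exact inv_ne_zero h.gen.ne
  · right
    exact neg_ne_zero.2 (mul_ne_zero ht h.gen.ne)

end line

section psi

variable {K K' N : Type} [Field K] [Algebra ℂ K] [Field K'] [Algebra ℂ K'] [Field N]
  [Algebra ℂ N] [IsAlgClosed N] {Q : Web} {x : Fin 4 → K} {κ : K' →ₐ[ℂ] K} {mm n : ℤ}
  {o o' : Fin 4 → N}

theorem PairN.iso_comb (W : WebI Q N) (h : PairN Q o o') {m : Fin 3 → N} (hL : Lk Q o o' m)
    (a b c d : N) : MB Q (m 1 / m 2) (m 2 / m 0) (a • (o + o') + b • (o - o'))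
      (c • (o + o') + d • (o - o')) = 0 := by
  have h1 : MB Q (m 1 / m 2) (m 2 / m 0) (o + o') (o + o') = 0 := MB_of_dt hL.ne hL.dx
  have h2 : MB Q (m 1 / m 2) (m 2 / m 0) (o - o') (o - o') = 0 := MB_of_dt hL.ne hL.dy
  have h3 : MB Q (m 1 / m 2) (m 2 / m 0) (o + o') (o - o') = 0 := by
    unfold MB
    rw [h.xy W]
    simp only [Pi.zero_apply, mul_zero, Finset.sum_const_zero]
  rw [MB_add_left, MB_add_right, MB_add_right, MB_smul_left, MB_smul_left, MB_smul_left,
    MB_smul_left, MB_smul_right, MB_smul_right, MB_smul_right, MB_smul_right,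
    MB_comm W.symm _ _ (o - o') (o + o'), h1, h2, h3]
  ring

/-- **The relation for the three lines.** -/
theorem PairN.psi (hx : C8.IsFF Q x) (hfin : ∀ o : Fin 4 → ℂ, qq Q o = 0 → o = 0)
    (hirr : Irreducible (octic Q))
    (hdet : ∀ (N : Type) [Field N] [Algebra ℂ N] (a b : N), AlgebraicIndependent ℂ ![a, b] →
      (MM Q a b).det ≠ 0) (hD : DHyp Q x κ mm n) (W : WebI Q N) (h : PairN Q o o')
    {m : Fin 3 → N} (hL : Lk Q o o' m) (h3 : R3 Q m) :
    n • RS x (aff o) (dir o o') (qm Q m (aff o) (dir o o')) ∈ RH κ mm N := by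
  have hQ := W.symm
  obtain ⟨z, hz⟩ : ∃ z, z = aff o := ⟨_, rfl⟩
  obtain ⟨r, hr⟩ : ∃ r, r = dir o o' := ⟨_, rfl⟩
  obtain ⟨a, ha⟩ : ∃ a, a = m 1 / m 2 := ⟨_, rfl⟩
  obtain ⟨b, hb⟩ : ∃ b, b = m 2 / m 0 := ⟨_, rfl⟩
  have a0 : a ≠ 0 := by rw [ha]; exact div_ne_zero (hL.ne 1) (hL.ne 2)
  have b0 : b ≠ 0 := by rw [hb]; exact div_ne_zero (hL.ne 2) (hL.ne 0)
  have z0 : z 0 = 1 := by rw [hz]; exact aff_zero h.gen.ne
  have r0 : r 0 = 0 := by rw [hr]; exact dir_zero _ _
  have rne : r ≠ 0 := by rw [hr]; exact h.dir_ne hx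
  have zz : MB Q a b z z = 0 := by
    rw [ha, hb, hz, aff_eq o o']
    exact h.iso_comb W hL _ _ _ _
  have zr : MB Q a b z r = 0 := by
    rw [ha, hb, hz, hr, aff_eq o o', dir_eq]
    exact h.iso_comb W hL _ _ _ _
  have rr : MB Q a b r r = 0 := by
    rw [ha, hb, hr, dir_eq]
    exact h.iso_comb W hL _ _ _ _
  have hline : ∀ t : N, MB Q a b (z + t • r) (z + t • r) = 0 := by
    intro t
    rw [MB_line hQ, zz, zr, rr]
    ring
  have hzg : GenW Q z := by
    rw [hz]
    exact h.gen.smul (inv_ne_zero h.gen.ne)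
  obtain ⟨j, j0, hj⟩ := exists_ze hQ z0 zz (hzg.jac_ne hQ hfin hirr)
  obtain ⟨k, k0, jk, hk⟩ : ∃ k : Fin 4, k ≠ 0 ∧ j ≠ k ∧ r k ≠ 0 := by
    by_contra hcon
    push Not at hcon
    have h1 : r = r j • Pi.single j 1 := by
      funext i
      rw [Pi.smul_apply, smul_eq_mul, Pi.single_apply]
      split_ifs with hi
      · rw [hi, mul_one]
      · rw [mul_zero]
        by_cases hi0 : i = 0
        · rw [hi0, r0]
        · exact hcon i hi0 (fun h2 => hi h2.symm)
    have h2 := zr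
    rw [h1, MB_smul_right] at h2
    apply rne
    rw [h1, (mul_eq_zero.1 h2).resolve_right hj, zero_smul]
  obtain ⟨l, hI⟩ := exists_idx j0 k0 jk
  obtain ⟨c, hc⟩ : ∃ c, c = (r k)⁻¹ := ⟨_, rfl⟩
  have c0 : c ≠ 0 := by rw [hc]; exact inv_ne_zero hk
  have hlc : cm (mv a b) (qq Q r) ≠ 0 := by
    intro h1
    have h2 := st_of_cm a0 b0 h1 rr
    rw [hr] at h2
    exact h.st_dir W hx h2
  have hcf : Cf Q j k l ![a, b, z k, z l] z (c • r) := by
    refine ⟨a0, b0, z0, rfl, rfl, ?_, ?_, zz, ?_, ?_, hj, ?_, ?_, ?_⟩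
    · rw [Pi.smul_apply, r0, smul_zero]
    · rw [Pi.smul_apply, smul_eq_mul, hc, inv_mul_cancel₀ hk]
    · change MB Q a b z (c • r) = 0
      rw [MB_smul_right, zr, mul_zero]
    · change MB Q a b (c • r) (c • r) = 0
      rw [MB_smul_right, MB_smul_left, rr, mul_zero, mul_zero]
    · have h1 := exists_nd hQ hL.ne h3 z0 (by rw [← ha, ← hb]; exact zz) (j := j)
        (by rw [← ha, ← hb]; exact hj)
      rw [← ha, ← hb] at h1
      exact h1
    · change cm (mv a b) (qq Q (c • r)) ≠ 0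
      rw [C8.qq_smul, cm_smul]
      exact mul_ne_zero (pow_ne_zero 2 (pow_ne_zero 2 c0)) hlc
    · intro t ht
      have ht' : cm (mv a b) (qq Q (z + t • c • r)) = 0 := ht
      rw [smul_smul] at ht' ⊢
      have h1 := st_of_cm a0 b0 ht' (hline _)
      rw [hz, hr] at h1 ⊢
      exact h.gen_line W hx _ h1
  have hrel := hcf.rel hx hQ hfin hirr hdet hD hI
  have h1 : qc Q ![a, b, z k, z l] z (c • r) = (qm Q (mv a b) z r).comp (C c * X) :=
    qm_scale _ _ _ _
  have h2 : qm Q (mv a b) z r ≠ 0 := by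
    intro h3
    have h4 := coeff_qm Q (mv a b) z r
    rw [h3, coeff_zero] at h4
    exact hlc h4.symm
  rw [h1, RS_scale z r h2 c0] at hrel
  have h3 : qm Q m z r = C (m 2) * qm Q (mv a b) z r := by
    rw [← qm_smul, ha, hb, ← m_eq hL.ne]
  rw [← hz, ← hr, h3, RS_C_mul _ _ _ (hL.ne 2)]
  exact hrel

/-- The product of the three quartics. -/
theorem PairN.prod (W : WebI Q N) (h : PairN Q o o') {m : Fin 3 → Fin 3 → N} {c : N}
    (hc : pq (m 0) (qq Q (o + o')) (qq Q (o - o')) * pq (m 1) (qq Q (o + o')) (qq Q (o - o')) *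
        pq (m 2) (qq Q (o + o')) (qq Q (o - o')) =
      C c * (X - 1) ^ 2 * (X + 1) ^ 2 * st (pY (qq Q (o + o')) (qq Q (o - o')))) (hne : o 0 ≠ 0) :
    qm Q (m 0) (aff o) (dir o o') * qm Q (m 1) (aff o) (dir o o') *
      qm Q (m 2) (aff o) (dir o o') =
      C c * ((C (o 0)⁻¹ + X * C (o' 0)) * (X * C (o 0))) ^ 2 * st (qL Q (aff o) (dir o o')) := by
  have h20 := char_two N
  have := infinite_of N
  have hcomb : ∀ α β : N, α + β ≠ 0 → cm (m 0) (qq Q (α • o + β • o')) *
      cm (m 1) (qq Q (α • o + β • o')) * cm (m 2) (qq Q (α • o + β • o')) =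
      c * (α * β) ^ 2 * st (qq Q (α • o + β • o')) := by
    intro α β hαβ
    obtain ⟨s, hs⟩ : ∃ s, s = (α - β) / (α + β) := ⟨_, rfl⟩
    obtain ⟨k, hk⟩ : ∃ k, k = (α + β) / 2 := ⟨_, rfl⟩
    have h1 : α • o + β • o' = k • ((o + o') + s • (o - o')) := by
      have hks : (α - β) / 2 = k * s := by
        rw [hk, hs]
        field_simp
      rw [comb_eq, ← hk, hks]
      module
    have h2 : qq Q ((o + o') + s • (o - o')) = qq Q (o + o') + s ^ 2 • qq Q (o - o') := by
      rw [qq_add W.symm, qb_smul_right, C8.qq_smul, h.xy W, smul_zero, smul_zero, add_zero]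
    have h3 := congrArg (eval s) hc
    rw [eval_mul, eval_mul, eval_pq, eval_pq, eval_pq, ← h2] at h3
    simp only [eval_mul, eval_C, eval_pow, eval_sub, eval_add, eval_X, eval_one] at h3
    rw [eval_st, ← h2] at h3
    rw [h1, C8.qq_smul, cm_smul, cm_smul, cm_smul, st_smul]
    have h4 : (α * β) ^ 2 = (k ^ 2) ^ 2 * ((s - 1) * (s + 1)) ^ 2 := by
      rw [hk, hs]
      field_simp
      ring
    rw [h4]
    linear_combination (k ^ 2) ^ 2 * (k ^ 2) ^ 2 * (k ^ 2) ^ 2 * h3
  have hδ : (C (o 0)⁻¹ + X * C (o' 0 - o 0) : N[X]) ≠ 0 := by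
    intro h1
    have h2 := congrArg (eval 0) h1
    simp only [eval_add, eval_mul, eval_C, eval_X, zero_mul, add_zero, eval_zero] at h2
    exact inv_ne_zero hne h2
  apply mul_left_cancel₀ hδ
  apply Polynomial.funext
  intro t
  by_cases ht : (o 0)⁻¹ + t * (o' 0 - o 0) = 0
  · rw [eval_mul, eval_mul]
    simp only [eval_add, eval_mul, eval_C, eval_X, ht, zero_mul]
  · rw [eval_mul, eval_mul]
    congr 1
    rw [eval_mul, eval_mul, eval_qm, eval_qm, eval_qm, line_eq]
    have h1 := hcomb ((o 0)⁻¹ + t * o' 0) (-(t * o 0)) (by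
      intro h2
      apply ht
      linear_combination h2)
    rw [h1]
    simp only [eval_mul, eval_C, eval_pow, eval_add, eval_X]
    rw [eval_st_qL, line_eq]
    ring

/-- **The linking relation.** -/
theorem PairN.link (hx : C8.IsFF Q x) (hfin : ∀ o : Fin 4 → ℂ, qq Q o = 0 → o = 0)
    (hirr : Irreducible (octic Q))
    (hdet : ∀ (N : Type) [Field N] [Algebra ℂ N] (a b : N), AlgebraicIndependent ℂ ![a, b] →
      (MM Q a b).det ≠ 0) (hD : DHyp Q x κ mm n) (W : WebI Q N)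
    (h3 : ∀ m : Fin 3 → N, (∀ i, m i ≠ 0) →
      (∀ (c : N) (m₀ : Fin 3 → ℂ), m ≠ fun i => c * algebraMap ℂ N (m₀ i)) → R3 Q m)
    (h : PairN Q o o') : (2 * n) • (C8.pt x o + C8.pt x o') ∈ RH κ mm N := by
  have hQ := W.symm
  obtain ⟨m, hm, c, hc, hprod⟩ := h.exists_lines W hx
  have hg' := h.gen' W hx
  have hpsi : ∀ i, n • RS x (aff o) (dir o o') (qm Q (m i) (aff o) (dir o o')) ∈ RH κ mm N :=
    fun i => h.psi hx hfin hirr hdet hD W (hm i) (h3 _ (hm i).ne
      (not_complex hQ hfin hirr h.gen (hm i).ne (hm i).cv))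
  have h8 := rs_octic hx κ mm (exists_cline hirr) (aff o) (dir o o') (h.st_dir W hx)
    (h.gen_line W hx)
  have hpr := h.prod W hprod h.gen.ne
  obtain ⟨τ, hτ⟩ : ∃ τ, τ = -((o 0)⁻¹ * (o' 0)⁻¹) := ⟨_, rfl⟩
  have hfac : (C (o 0)⁻¹ + X * C (o' 0)) * (X * C (o 0)) =
      (C (o' 0 * o 0) * ((X - C τ) * (X - C 0)) : N[X]) := by
    have h1 : (C (o 0)⁻¹ : N[X]) = - (C (o' 0) * C τ) := by
      rw [← C_mul, ← C_neg, hτ]
      congr 1
      have := hg'.ne
      field_simp
    rw [h1, C_mul, C_0]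
    ring
  have hst0 : st (qL Q (aff o) (dir o o')) ≠ 0 := by
    intro h0
    have h1 := coeff_st_qL Q (aff o) (dir o o')
    rw [h0, coeff_zero] at h1
    exact h.st_dir W hx h1.symm
  have hk0 : o' 0 * o 0 ≠ 0 := mul_ne_zero hg'.ne h.gen.ne
  have hL : (X - C τ) * (X - C 0) ≠ (0 : N[X]) :=
    mul_ne_zero (X_sub_C_ne_zero _) (X_sub_C_ne_zero _)
  have hLL : ((X - C τ) * (X - C 0)) * ((X - C τ) * (X - C 0)) ≠ (0 : N[X]) := mul_ne_zero hL hL
  have hpr2 : qm Q (m 0) (aff o) (dir o o') * qm Q (m 1) (aff o) (dir o o') *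
      qm Q (m 2) (aff o) (dir o o') =
      C (c * (o' 0 * o 0) ^ 2) * ((((X - C τ) * (X - C 0)) * ((X - C τ) * (X - C 0))) *
        st (qL Q (aff o) (dir o o'))) := by
    rw [hpr, hfac]
    simp only [C_mul, C_pow]
    ring
  have hR : c * (o' 0 * o 0) ^ 2 ≠ 0 := mul_ne_zero hc (pow_ne_zero 2 hk0)
  have hne3 : qm Q (m 0) (aff o) (dir o o') * qm Q (m 1) (aff o) (dir o o') *
      qm Q (m 2) (aff o) (dir o o') ≠ 0 := by
    rw [hpr2]
    exact mul_ne_zero (C_ne_zero.2 hR) (mul_ne_zero hLL hst0)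
  have hsum := congrArg (RS x (aff o) (dir o o')) hpr2
  rw [RS_mul _ _ hne3, RS_mul _ _ (left_ne_zero_of_mul hne3), RS_C_mul _ _ _ hR,
    RS_mul _ _ (mul_ne_zero hLL hst0), RS_mul _ _ hLL, RS_mul _ _ hL, RS_linear, RS_linear,
    zero_smul, add_zero] at hsum
  have e1 : C8.pt x (aff o) = C8.pt x o := pt_smul (inv_ne_zero h.gen.ne)
  have e2 : C8.pt x (aff o + τ • dir o o') = C8.pt x o' := by
    have h1 : aff o + τ • dir o o' = (o' 0)⁻¹ • o' := by
      rw [line_eq, hτ]
      have h2 : (o 0)⁻¹ + -((o 0)⁻¹ * (o' 0)⁻¹) * o' 0 = 0 := by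
        have := hg'.ne
        have := h.gen.ne
        field_simp
        ring
      have h4 : -(-((o 0)⁻¹ * (o' 0)⁻¹) * o 0) = (o' 0)⁻¹ := by
        have := hg'.ne
        have := h.gen.ne
        field_simp
      rw [h2, h4, zero_smul, zero_add]
    rw [h1, pt_smul (inv_ne_zero hg'.ne)]
  rw [e1, e2] at hsum
  have h5 : (2 * n) • (C8.pt x o + C8.pt x o') =
      n • RS x (aff o) (dir o o') (qm Q (m 0) (aff o) (dir o o')) +
      n • RS x (aff o) (dir o o') (qm Q (m 1) (aff o) (dir o o')) +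
      n • RS x (aff o) (dir o o') (qm Q (m 2) (aff o) (dir o o')) -
      n • RS x (aff o) (dir o o') (st (qL Q (aff o) (dir o o'))) := by
    rw [← smul_add, ← smul_add, hsum, ← smul_sub]
    have h6 : C8.pt x o' + C8.pt x o + (C8.pt x o' + C8.pt x o) +
        RS x (aff o) (dir o o') (st (qL Q (aff o) (dir o o'))) -
        RS x (aff o) (dir o o') (st (qL Q (aff o) (dir o o'))) =
        (2 : ℤ) • (C8.pt x o + C8.pt x o') := by
      rw [two_smul]
      abel
    rw [h6, smul_smul, mul_comm]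
  rw [h5]
  exact sub_mem (add_mem (add_mem (hpsi 0) (hpsi 1)) (hpsi 2)) (zsmul_mem h8 n)

end psi

end Vale.Agent.P297.H55.Nd
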